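import Vale.Agent.P167.H531.Poly
import Vale.Agent.P167.H192.Dict2
import Vale.Agent.P167.FK.Defs

/-!
# P167, general `q`, Stage II: the outer faces of a polygon are joined to infinity
-/

namespace Vale.Agent.P167.QG

open Vale.Agent.P167.FK Relation
open Vale.Agent.P145.FB (PStep)
open Vale.Agent.P167.E6 (IsPolygon Encloses dir face edges)
open Vale.Agent.P167.E2 (mem_edges ro ro_spec ro_unique cs fin4_1)
open Vale.Agent.P167.H531 (fo' ext_const fo_not_mem fi_mem)

variable {n : ℕ} {p : ZMod n → ℤ × ℤ} {S : Finset (ℤ × ℤ)} {O : Set (Sym2 (ℤ × ℤ))}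

theorem dc_face (hO : O ⊆ edges S) {v : ℤ × ℤ} {r : Fin 4} (h : s(v, v + dir r) ∉ edges S) :
    PStep (op (H192.cfg O))ᶜ (H192.rf (face v (r - 1))) (H192.rf (face v r)) := by
  rw [H192.fStep_iff]
  exact ⟨v, r - 1, rfl, by rw [fin4_1], by rw [fin4_1]; exact fun hc => h (hO hc)⟩

theorem dc_fo (hp : IsPolygon p) (hS : Encloses p S) (hO : O ⊆ edges S) (i j : ZMod n) :
    DC (H192.cfg O) (H192.rf (fo' p i)) (H192.rf (fo' p j)) := by
  classical
  set h : ℤ × ℤ → ZMod 2 := fun f =>
    if DC (H192.cfg O) (H192.rf (fo' p i)) (H192.rf f) then 1 else 0 with hh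
  have key := ext_const hp hS (h := h) (fun v r he => by
    have e1 := dc_face hO he
    have : DC (H192.cfg O) (H192.rf (fo' p i)) (H192.rf (face v r)) ↔
        DC (H192.cfg O) (H192.rf (fo' p i)) (H192.rf (face v (r - 1))) :=
      ⟨fun h => h.tail e1.symm, fun h => h.tail e1⟩
    simp only [hh, this]) i j
  simp only [hh] at key
  rw [if_pos (show DC (H192.cfg O) (H192.rf (fo' p i)) (H192.rf (fo' p i)) from
    ReflTransGen.refl)] at key
  by_contra hn
  rw [if_neg hn] at key
  exact absurd key (by decide)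

/-- The outer faces of the polygon are joined to infinity by closed squares. -/
theorem dc_far (hp : IsPolygon p) (hS : Encloses p S) (hO : O ⊆ edges S) (i : ZMod n) (N : ℤ) :
    ∃ f, DC (H192.cfg O) (H192.rf (fo' p i)) (H192.rf f) ∧ N ≤ f.1 := by
  obtain ⟨f, hf, hmax⟩ := S.exists_max_image (fun f => f.1) ⟨_, fi_mem hp hS i⟩
  have hout : ∀ a b : ℤ, f.1 < a → (a, b) ∉ S := fun a b hab h => by
    have := hmax _ h
    simp only at this
    omega
  have e1 : face (f.1 + 1, f.2) 1 = f := by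
    show (f.1 + 1 + -1, f.2 + 0) = f
    ext <;> simp
  have e2 : face (f.1 + 1, f.2) (1 - 1) = (f.1 + 1, f.2) := by
    show (f.1 + 1 + 0, f.2 + 0) = _
    ext <;> simp
  obtain ⟨j, hj1, hj2⟩ := (hS (f.1 + 1, f.2) 1).2
    ⟨by rw [e1]; exact hf, by rw [e2]; exact hout _ _ (by omega)⟩
  have hro : (1 : Fin 4) = ro p j := ro_unique hp (by rw [hj2, hj1])
  have hfo : fo' p j = (f.1 + 1, f.2) := by
    unfold fo'
    rw [← hro, hj1, e2]
  have h0 := dc_fo hp hS hO i j
  rw [hfo] at h0
  have step : ∀ k : ℕ, DC (H192.cfg O) (H192.rf (fo' p i)) (H192.rf (f.1 + 1 + k, f.2)) := by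
    intro k
    induction k with
    | zero => simpa using h0
    | succ k ih =>
      refine ih.tail ?_
      have e3 : face (f.1 + 1 + k + 1, f.2) 1 = (f.1 + 1 + k, f.2) := by
        show (f.1 + 1 + k + 1 + -1, f.2 + 0) = _
        ext <;> simp
      have e4 : face (f.1 + 1 + k + 1, f.2) (1 - 1) = (f.1 + 1 + ((k + 1 : ℕ) : ℤ), f.2) := by
        show (f.1 + 1 + k + 1 + 0, f.2 + 0) = _
        push_cast
        ext
        · simp only
          ring
        · simp
      have h1 : s((f.1 + 1 + (k : ℤ) + 1, f.2), (f.1 + 1 + (k : ℤ) + 1, f.2) + dir 1) ∉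
          edges S := by
        rw [mem_edges, e3, e4, not_or]
        push_cast
        exact ⟨hout _ _ (by omega), hout _ _ (by omega)⟩
      have h2 := (dc_face hO h1).symm
      rw [e3, e4] at h2
      exact h2
  refine ⟨_, step (N - f.1).toNat, ?_⟩
  simp only
  have := Int.self_le_toNat (N - f.1)
  omega

theorem dc_inf (hp : IsPolygon p) (hS : Encloses p S) (hO : O ⊆ edges S) :
    {t | DC (H192.cfg O) (rs (H192.me (cs p))) t}.Infinite := by
  intro hfin
  have e0 : rs (H192.me (cs p)) = H192.rf (fo' p (-1)) := by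
    rw [H192.rs_me]
    rfl
  rw [e0] at hfin
  obtain ⟨M, hM⟩ := (hfin.image fun t : ℤ × ℤ => t.1 + t.2).bddAbove
  obtain ⟨f, hf, hN⟩ := dc_far hp hS hO (-1) (|M| + 1)
  have h1 := hM (Set.mem_image_of_mem (fun t : ℤ × ℤ => t.1 + t.2) hf)
  simp only [H192.rf] at h1
  have := le_abs_self M
  have := abs_nonneg M
  omega

end Vale.Agent.P167.QG
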