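import Vale.Agent.P167.QG.Cutp
import Vale.Agent.P167.QE.FinW
import Vale.Agent.P167.H161.Cex
import Vale.Agent.P167.H718.Rc2

/-!
# P167, general `q`, block Q-DMP: conditional expectations along the interface

`cexW_exn`: the conditional expectation of a function of the open edges (with the wired arc) given
the first `j` steps of the interface, for the random-cluster weights, is the expectation for the
loop measure in the unexplored squares with the explored configuration outside.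
-/

set_option linter.unusedVariables false

namespace Vale.Agent.P167.QG

open Finset MeasureTheory Vale.Agent.P167.FK Vale.Agent.P167.FKA
open Vale.Agent.P167.E6 (wiredOpen edges Encloses IsPolygon)
open Vale.Agent.P167.E2 (run)
open Vale.Agent.P167.H718 (Dq etaQ wE)
open Vale.Agent.P167.QE (ExW cexW)
open Vale.Agent.P167.H411 (cyl exn Qc)

section

variable {n : ℕ} {p : ZMod n → ℤ × ℤ} {k : ℕ} {S : Finset (ℤ × ℤ)}

/-! ### Weights -/

theorem selfDual_pos {q : ℝ} (hq : 0 < q) : 0 < Final.selfDual q := by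
  have := Real.sqrt_pos.2 hq
  unfold Final.selfDual
  positivity

theorem selfDual_lt {q : ℝ} (hq : 0 < q) : 0 < 1 - Final.selfDual q := by
  have := Real.sqrt_pos.2 hq
  unfold Final.selfDual
  rw [sub_pos, div_lt_one (by positivity)]
  linarith

theorem weight_pos {q : ℝ} (hq : 0 < q) (p : ZMod n → ℤ × ℤ) (k : ℕ) (S : Finset (ℤ × ℤ))
    (A : Finset (Sym2 (ℤ × ℤ))) : 0 < Final.weight q p k S A := by
  have h1 := selfDual_pos hq
  have h2 := selfDual_lt hq
  unfold Final.weight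
  positivity

theorem weight_sum_pos {q : ℝ} (hq : 0 < q) (p : ZMod n → ℤ × ℤ) (k : ℕ) (S : Finset (ℤ × ℤ)) :
    0 < ∑ A ∈ (edges S).powerset, Final.weight q p k S A :=
  Finset.sum_pos (fun A _ => weight_pos hq p k S A) ⟨∅, Finset.empty_mem_powerset _⟩

/-- The weighted average over a set of configurations as a quotient of means. -/
theorem exW_mean {q : ℝ} (hq : 0 < q) {Cs : Set (Finset (Sym2 (ℤ × ℤ)))}
    (hC : ∀ A ∈ Cs, A ⊆ edges S) (φ : Finset (Sym2 (ℤ × ℤ)) → ℝ) :
    ExW Cs (fun A => Final.weight q p k S A) φ =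
      Final.mean q p k S (fun A => Cs.indicator 1 A * φ A) /
        Final.mean q p k S (Cs.indicator 1) := by
  classical
  have hf : Cs.Finite := (Finset.finite_toSet (edges S).powerset).subset fun A hA =>
    Finset.mem_coe.2 (Finset.mem_powerset.2 (hC A hA))
  have h1 : hf.toFinset = (edges S).powerset.filter (· ∈ Cs) := by
    ext A
    rw [Set.Finite.mem_toFinset, Finset.mem_filter, Finset.mem_powerset]
    exact ⟨fun h => ⟨hC A h, h⟩, fun h => h.2⟩
  have h2 : (Final.edges S) = edges S := rfl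
  rw [QE.exW_eq_sum hf, h1]
  unfold Final.mean
  rw [h2, div_div_div_cancel_right₀ (weight_sum_pos hq p k S).ne', Finset.sum_filter,
    Finset.sum_filter]
  congr 1
  · refine Finset.sum_congr rfl fun A _ => ?_
    show _ = Final.weight q p k S A * (Cs.indicator 1 A * φ A)
    by_cases h : A ∈ Cs
    · rw [if_pos h, Set.indicator_of_mem h, Pi.one_apply, one_mul]
    · rw [if_neg h, Set.indicator_of_notMem h, zero_mul, mul_zero]
  · refine Finset.sum_congr rfl fun A _ => ?_
    by_cases h : A ∈ Cs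
    · rw [if_pos h, Set.indicator_of_mem h, Pi.one_apply, mul_one]
    · rw [if_neg h, Set.indicator_of_notMem h, mul_zero]

/-! ### The domain -/

theorem dq_eq : H192.dq p k S = Dq S p k := by
  ext v
  rw [H192.mem_dq, H718.mem_Dq', H718.mem_wE]
  rfl

theorem wired_out {A : Finset (Sym2 (ℤ × ℤ))} (hA : A ⊆ edges S) {v : ℤ × ℤ}
    (hv : v ∉ Dq S p k) : H192.cfg (wiredOpen p k A) v = etaQ p k v := by
  have h1 := H718.cf_eq (S := S) (p := p) (k := k) (B := A \ wE p k)
    (Finset.sdiff_subset_sdiff hA (Finset.Subset.refl _))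
  rw [H718.wiredOpen_sdiff] at h1
  rw [← h1]
  exact cf_out hv

/-- The configuration of a set of edges is a configuration of the domain. -/
theorem exists_cf {A : Finset (Sym2 (ℤ × ℤ))} (hA : A ⊆ edges S) :
    ∃ T ⊆ Dq S p k, H192.cfg (wiredOpen p k A) = cf (Dq S p k) (etaQ p k) T := by
  have h1 := H718.cf_eq (S := S) (p := p) (k := k) (B := A \ wE p k)
    (Finset.sdiff_subset_sdiff hA (Finset.Subset.refl _))
  rw [H718.wiredOpen_sdiff] at h1
  refine ⟨_, ?_, h1.symm⟩
  exact Finset.image_subset_image (Finset.sdiff_subset_sdiff hA (Finset.Subset.refl _))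

theorem wired_in {A : Finset (Sym2 (ℤ × ℤ))} {v : ℤ × ℤ} (hv : v ∈ Dq S p k) :
    H192.cfg (wiredOpen p k A) v = H192.cfg (A : Set (Sym2 (ℤ × ℤ))) v := by
  rw [Bool.eq_iff_iff, H192.cfg_true, H192.cfg_true, H718.mem_wiredOpen, Finset.mem_coe]
  exact ⟨fun h => h.resolve_right (H718.mem_Dq'.1 hv).2, Or.inl⟩

/-- The event that the squares of `R` have the states of `ω₀`. -/
def Agr (R : Finset (ℤ × ℤ)) (ω₀ : Cfg) : Set Cfg := {ω | ∀ v ∈ R, ω v = ω₀ v}

theorem loc_agr (R : Finset (ℤ × ℤ)) (ω₀ : Cfg) : Loc R ((Agr R ω₀).indicator 1) := by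
  intro ω ω' h
  have key : ω ∈ Agr R ω₀ ↔ ω' ∈ Agr R ω₀ :=
    ⟨fun h1 v hv => by rw [← h v hv]; exact h1 v hv, fun h1 v hv => by rw [h v hv]; exact h1 v hv⟩
  by_cases h1 : ω ∈ Agr R ω₀
  · rw [Set.indicator_of_mem h1, Set.indicator_of_mem (key.1 h1)]
    rfl
  · rw [Set.indicator_of_notMem h1, Set.indicator_of_notMem (fun h2 => h1 (key.2 h2))]

theorem cf_self {D : Finset (ℤ × ℤ)} {η ω₀ : Cfg} (h : ∀ v, v ∉ D → ω₀ v = η v) :
    ω₀ = cf D η (D.filter fun v => ω₀ v = true) := by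
  classical
  funext v
  by_cases hv : v ∈ D
  · unfold cf
    rw [if_pos hv, Bool.eq_iff_iff, decide_eq_true_iff, Finset.mem_filter]
    exact ⟨fun h => ⟨hv, h⟩, fun h => h.2⟩
  · rw [cf_out hv, h v hv]

theorem pr_agr_pos {Q : ℝ} (hQ : 0 < Q) {D R : Finset (ℤ × ℤ)} {η ω₀ : Cfg}
    (h : ∀ v, v ∉ D → ω₀ v = η v) : 0 < Pr Q D η (Agr R ω₀) := by
  classical
  unfold Pr Ex
  refine div_pos ?_ (Zq_pos hQ D η)
  have h0 := cf_self h
  have h1 := Finset.single_le_sum
    (f := fun S => Q ^ LD D (cf D η S) * (Agr R ω₀).indicator 1 (cf D η S))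
    (fun S _ => mul_nonneg (pow_pos hQ _).le (ind_nonneg _ _))
    (Finset.mem_powerset.2 (Finset.filter_subset (fun v => ω₀ v = true) D))
  refine lt_of_lt_of_le ?_ h1
  have h2 : cf D η (D.filter fun v => ω₀ v = true) ∈ Agr R ω₀ := fun v _ => by rw [← h0]
  rw [Set.indicator_of_mem h2]
  simp only [Pi.one_apply, mul_one]
  exact pow_pos hQ _

/-- **Conditioning on the states of the squares of `R`.** -/
theorem Ex_agr {Q : ℝ} (hQ : 0 < Q) {D R : Finset (ℤ × ℤ)} {η ω₀ : Cfg} (hη : Good η)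
    (h : ∀ v, v ∉ D → ω₀ v = η v) (F : Cfg → ℝ) :
    Ex Q D η (fun ω => (Agr R ω₀).indicator 1 ω * F ω) =
      Pr Q D η (Agr R ω₀) * Ex Q (D \ R) ω₀ F := by
  have hI : Ind (D \ R) ((Agr R ω₀).indicator 1) := by
    intro ω ω' h'
    exact loc_agr R ω₀ ω ω' fun v hv => h' v fun h2 => (Finset.mem_sdiff.1 h2).2 hv
  rw [markov H259.f_markov hQ Finset.sdiff_subset hη hI]
  have e : Pr Q D η (Agr R ω₀) * Ex Q (D \ R) ω₀ F =
      Ex Q D η fun ω => (Agr R ω₀).indicator 1 ω * Ex Q (D \ R) ω₀ F := by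
    show Ex Q D η ((Agr R ω₀).indicator 1) * _ = _
    rw [mul_comm, ← Ex_mul_left]
    exact Ex_congr fun S _ => mul_comm _ _
  rw [e]
  refine Ex_congr fun T _ => ?_
  by_cases hR : cf D η T ∈ Agr R ω₀
  · congr 1
    refine Ex_out (fun v hv => ?_) F
    by_cases hvD : v ∈ D
    · exact hR v (by_contra fun h2 => hv (Finset.mem_sdiff.2 ⟨hvD, h2⟩))
    · rw [cf_out hvD, h v hvD]
  · rw [Set.indicator_of_notMem hR, zero_mul, zero_mul]

/-- **The conditional expectation given the first steps of the interface.** -/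
theorem exW_cyl {q : ℝ} (hq : 0 < q) (hp : IsPolygon p) (hE : Encloses p S)
    {A : Finset (Sym2 (ℤ × ℤ))} (hA : A ⊆ edges S) (j : ℕ) (Φ : Cfg → ℝ) :
    ExW {A' | A' ⊆ edges S ∧ ∀ i ≤ j, run p k A' (i - 1) = run p k A (i - 1)}
        (fun A' => Final.weight q p k S A') (fun A' => Φ (H192.cfg (wiredOpen p k A'))) =
      Ex (√q) (Dq S p k \ H161.Rd p k S A j) (H192.cfg (wiredOpen p k A)) Φ := by
  classical
  have hQ : 0 < √q := Real.sqrt_pos.2 hq
  set ω₀ := H192.cfg (wiredOpen p k A) with hω₀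
  set R := H161.Rd p k S A j with hR
  have hRD : R ⊆ Dq S p k := by
    rw [← dq_eq]
    exact H161.Rd_subset j
  have key : ∀ A' ∈ (edges S).powerset, (A' ∈ {A' | A' ⊆ edges S ∧
      ∀ i ≤ j, run p k A' (i - 1) = run p k A (i - 1)} ↔
      H192.cfg (wiredOpen p k A') ∈ Agr R ω₀) := by
    intro A' hA'
    rw [Finset.mem_powerset] at hA'
    rw [Set.mem_ofPred_eq, H161.run_agree_iff hA hA']
    constructor
    · rintro ⟨-, h⟩ v hv
      rw [hω₀, wired_in (hRD hv), wired_in (hRD hv)]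
      exact h v hv
    · intro h
      refine ⟨hA', fun v hv => ?_⟩
      have h1 := h v hv
      rw [hω₀, wired_in (hRD hv), wired_in (hRD hv)] at h1
      exact h1
  have h1 : ∀ (Ψ : Cfg → ℝ), Final.mean q p k S (fun A' => Set.indicator {A' | A' ⊆ edges S ∧
      ∀ i ≤ j, run p k A' (i - 1) = run p k A (i - 1)} 1 A' *
        Ψ (H192.cfg (wiredOpen p k A'))) =
      Ex (√q) (Dq S p k) (etaQ p k) (fun ω => (Agr R ω₀).indicator 1 ω * Ψ ω) := by
    intro Ψ
    rw [← H718.mean_eq_Ex hq hp hE]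
    unfold Final.mean
    congr 1
    refine Finset.sum_congr rfl fun A' hA' => ?_
    congr 1
    show Set.indicator _ _ _ * _ = (Agr R ω₀).indicator 1 (H192.cfg (wiredOpen p k A')) *
      Ψ (H192.cfg (wiredOpen p k A'))
    by_cases h : H192.cfg (wiredOpen p k A') ∈ Agr R ω₀
    · rw [Set.indicator_of_mem ((key A' hA').2 h), Set.indicator_of_mem h]
      rfl
    · rw [Set.indicator_of_notMem (fun h' => h ((key A' hA').1 h')), Set.indicator_of_notMem h]
  have hout : ∀ v, v ∉ Dq S p k → ω₀ v = etaQ p k v := fun v hv => wired_out hA hv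
  have h2 := h1 Φ
  have h3 := h1 (fun _ => 1)
  rw [Ex_agr hQ H718.good_etaQ hout] at h2 h3
  rw [Ex_const hQ, mul_one] at h3
  simp only [mul_one] at h3
  rw [exW_mean hq (fun A' h => h.1), h2]
  rw [show Final.mean q p k S (Set.indicator {A' | A' ⊆ edges S ∧
      ∀ i ≤ j, run p k A' (i - 1) = run p k A (i - 1)} 1) = _ from h3,
    mul_div_cancel_left₀ _ (pr_agr_pos hQ hout).ne']

end

/-- **The conditional expectations of the explorations `exn` for the random-cluster weights.** -/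
theorem cexW_exn {q : ℝ} (hq : 0 < q) (δ : ℕ → ℝ) (N k : ℕ → ℕ) (p : ∀ n, ZMod (N n) → ℤ × ℤ)
    (S : ℕ → Finset (ℤ × ℤ)) (ψn : ℕ → ℂ → ℂ) (n : ℕ) (hp : IsPolygon (p n))
    (hE : Encloses (p n) (S n)) (Φ : Cfg → ℝ) {A : Finset (Sym2 (ℤ × ℤ))}
    (hA : A ⊆ edges (S n)) (j : ℕ) :
    cexW (exn δ N k p S ψn n) (fun A' => Final.weight q (p n) (k n) (S n) A')
        (fun A' => Φ (H192.cfg (wiredOpen (p n) (k n) A'))) A j =
      Ex (√q) (Dq (S n) (p n) (k n) \ H161.Rd (p n) (k n) (S n) A j)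
        (H192.cfg (wiredOpen (p n) (k n) A)) Φ := by
  rw [← exW_cyl hq hp hE hA]
  show ExW (cyl (exn δ N k p S ψn n) A j) _ _ = _
  congr 1
  ext A'
  show A' ∈ (Qc (p n) (k n) (δ n) (S n)).C ∧ _ ↔ _
  rw [H411.mem_Qc]
  rfl

/-- **The cut.** The expectation with a closed set of squares is the probability that they are
closed times the expectation in the domain without them, with the squares closed. -/
theorem Ex_cld {Q : ℝ} (hQ : 0 < Q) {D K : Finset (ℤ × ℤ)} {η : Cfg} (hη : Good η)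
    (hK : K ⊆ D) (F : Cfg → ℝ) :
    Ex Q D η (fun ω => (Cld K).indicator 1 ω * F ω) =
      Pr Q D η (Cld K) * Ex Q (D \ K) (fun v => if v ∈ K then false else η v) F := by
  classical
  set ω₀ : Cfg := fun v => if v ∈ K then false else η v with hω₀
  have e : Cld K = Agr K ω₀ := by
    ext ω
    refine forall₂_congr fun v hv => ?_
    rw [hω₀]
    simp [hv]
  rw [e]
  exact Ex_agr hQ hη (fun v hv => if_neg fun h => hv (hK h)) F

end Vale.Agent.P167.QG
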