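import Vale.Agent.P167.QG.Apx4

/-!
# P167, general `q`: approximations of polygon domains, 5

`approx_stair`: the domain of a polygon of the lattice of the squares (rotated and scaled) has, for
all meshes, approximations which are straight near the target, if the target is inside of a side.
-/

set_option autoImplicit false

open Filter Topology Set

namespace Vale.Agent.P167.QG.Apx

open Vale.Agent.P167.E6
open Vale.Agent.P167.H653.Real (RealP cc)
open Vale.Agent.P153.R2.Final (dom circ toC)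

variable {m : ℕ} {q : ZMod m → ℤ × ℤ} {S₀ : Finset (ℤ × ℤ)}

theorem fin_three (r : Fin 4) : r + 3 + 1 = r := by
  revert r
  decide

/-- The steps near the target. -/
theorem stair_ev (hq : IsPolygon q) {a b lam g : ℝ} (ha : 0 ≤ a) (hlam : 0 < lam)
    {j : ℕ} {r : Fin 4} (hj : q ((j : ZMod m) + 1) = q j + dir r) (hg : 0 < g)
    (hg1 : j + 2 * g ≤ b) (hg2 : b + 2 * g ≤ j + 1) (hg3 : 2 * g ≤ b - a) (hg4 : b - a + 2 * g ≤ m)
    {δ : ℕ → ℝ} (hδ : ∀ n, 0 < δ n) (h0 : Tendsto δ atTop (𝓝 0)) : ∀ᶠ n in atTop,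
      ∀ (n' : ℕ) (p : ZMod n' → ℤ × ℤ) (k : ℕ) (S : Finset (ℤ × ℤ)) (f : ℕ → ℕ),
        RealP q S₀ (Nn lam (δ n)) (1, 0) (tn a lam (δ n)) (Kn (b - a) lam (δ n)) p k S f →
        ∀ m' : ℕ, (m' : ℝ) * δ n ≤ g * lam / 4 →
          p ((k : ZMod n') + m' + 1) = p ((k : ZMod n') + m') +
            (if Even m' then dir (r + 3) else dir (r + 3 + 1)) ∧
          p ((k : ZMod n') - m') = p ((k : ZMod n') - m' - 1) +
            (if Even m' then dir (r + 3) else dir (r + 3 + 1)) := by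
  have hN := tendsto_Nn hlam hδ h0
  have u1 : Tendsto (fun n => (g + 2) * δ n) atTop (𝓝 0) := by
    have := h0.const_mul (g + 2)
    rwa [mul_zero] at this
  have hgl : 0 < g * lam / 4 := by positivity
  filter_upwards [hN.eventually_ge_atTop (4 / g), (Metric.tendsto_nhds.1 u1) (g * lam / 4) hgl]
    with n v1 v2 n' p k S f hR m' hm'
  rw [Real.dist_eq, sub_zero] at v2
  have v2' := (abs_lt.1 v2).2
  have hδn := hδ n
  set N := Nn lam (δ n) with hNdef
  have hgN : 4 ≤ g * N := by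
    rw [div_le_iff₀ hg] at v1
    linarith
  have hN0' : (0 : ℝ) < N := by
    by_contra hcon
    have : g * (N : ℝ) ≤ 0 := mul_nonpos_of_nonneg_of_nonpos hg.le (not_lt.1 hcon)
    linarith
  have hN0 : 0 < N := by exact_mod_cast hN0'
  have hb := Nn_bd hlam hδn
  have ht := tn_bd (a := a) (lam := lam) (δ := δ n) ha
  have hK := Kn_bd (a := b - a) (lam := lam) (δ := δ n) (by linarith)
  have hM := Kn_bd (a := g) (lam := lam) (δ := δ n) hg.le
  rw [← hNdef] at hb ht hK hM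
  set t := tn a lam (δ n)
  set K := Kn (b - a) lam (δ n)
  set M := Kn g lam (δ n)
  have hMe : Even M := even_Kn
  have a1 := mul_le_mul_of_nonneg_right hg1 hN0'.le
  have a2 := mul_le_mul_of_nonneg_right hg2 hN0'.le
  have a3 := mul_le_mul_of_nonneg_right hg3 hN0'.le
  have a4 := mul_le_mul_of_nonneg_right hg4 hN0'.le
  have hmM : m' < M := by
    have h1 : (m' : ℝ) < M := by
      by_contra hcon
      have h2 : (M : ℝ) * δ n ≤ m' * δ n := mul_le_mul_of_nonneg_right (not_lt.1 hcon) hδn.le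
      have h3 : (g * N - 2) * δ n ≤ M * δ n := mul_le_mul_of_nonneg_right hM.1 hδn.le
      have h4 : g * (lam - 2 * δ n) ≤ g * (δ n * N) := mul_le_mul_of_nonneg_left hb.1 hg.le
      linarith
    exact_mod_cast h1
  have hMK : M ≤ K := by
    have h1 : (M : ℝ) ≤ K := by linarith
    exact_mod_cast h1
  have hKM : K + M ≤ m * N := by
    have h1 : ((K + M : ℕ) : ℝ) ≤ ((m * N : ℕ) : ℝ) := by
      push_cast
      linarith
    exact_mod_cast h1
  have hfl : ∀ i, K ≤ i + M → i < K + M → cc q N t (1, 0) (i + 1) = cc q N t (1, 0) i + dir r := by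
    intro i h1 h2
    have h1' : (K : ℝ) ≤ i + M := by exact_mod_cast h1
    have h2' : (i : ℝ) + 1 ≤ K + M := by exact_mod_cast h2
    refine cc_flat hq hN0 hj (1, 0) ?_ ?_
    · have h3 : ((j * N : ℕ) : ℝ) ≤ ((i + t : ℕ) : ℝ) := by
        push_cast
        linarith
      exact_mod_cast h3
    · have h3 : ((i + t : ℕ) : ℝ) < (((j + 1) * N : ℕ) : ℝ) := by
        push_cast
        linarith
      exact_mod_cast h3
  have w := hR.wired M r hMe hKM (fun i h1 h2 => hfl i (by omega) h2) m' hmM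
  have fr := hR.free M r hMe hMK (fun i h1 h2 => hfl i h1 (by omega)) m' hmM
  rw [fin_three]
  exact ⟨w, fr⟩

/-- **Approximations of polygon domains.** -/
theorem approx_stair (hq : IsPolygon q) (hE : Encloses q S₀) {σ : ℝ → ℝ} (hc : Continuous σ)
    (hm : StrictMono σ) (hσ : ∀ t, σ (t + 2 * Real.pi) = σ t + m) (ha : 0 ≤ σ 0) {j : ℕ}
    (hj1 : (j : ℝ) < σ Real.pi) (hj2 : σ Real.pi < j + 1) {r : Fin 4}
    (hj : q ((j : ZMod m) + 1) = q j + dir r) {lam : ℝ} (hlam : 0 < lam)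
    {Φ : (ℝ × ℝ) ≃ₜ (ℝ × ℝ)}
    (hΦ : ∀ t, toC (Φ (circ t)) = (lam : ℂ) * rt * PF6 q 1 (σ t)) {δ : ℕ → ℝ}
    (hδ : ∀ n, 0 < δ n) (h0 : Tendsto δ atTop (𝓝 0)) :
    ∃ (N k : ℕ → ℕ) (p : ∀ n, ZMod (N n) → ℤ × ℤ) (S : ℕ → Finset (ℤ × ℤ)),
      Approx Φ δ N k p S ∧ QE.Stair (r + 3) Φ δ N k p S := by
  have hpi := Real.pi_pos
  have hab : σ 0 < σ Real.pi := hm hpi
  have hbm : σ Real.pi < σ 0 + m := by
    rw [← hσ]
    exact hm (by linarith)
  obtain ⟨n₀, hn₀⟩ := eventually_atTop.1 (exists_real hq hE (σ 0)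
    (d := σ Real.pi - σ 0) (by linarith) (by linarith) hlam hδ h0)
  have h1 : ∀ n, ∃ (n' : ℕ) (p : ZMod n' → ℤ × ℤ) (k : ℕ) (S : Finset (ℤ × ℤ)) (f : ℕ → ℕ),
      RealP q S₀ (Nn lam (δ (max n n₀))) (1, 0) (tn (σ 0) lam (δ (max n n₀)))
        (Kn (σ Real.pi - σ 0) lam (δ (max n n₀))) p k S f := fun n => hn₀ _ (le_max_right _ _)
  choose N p k S f hR using h1
  refine ⟨N, k, p, S, ⟨fun n => ⟨hδ n, (hR n).k_pos, (hR n).k_lt, (hR n).poly, (hR n).encl⟩, h0,
    fun ε hε => ?_⟩, ?_⟩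
  · filter_upwards [exists_par_ev (S₀ := S₀) hq hc hm hσ ha hlam hΦ hδ h0 hε,
      eventually_ge_atTop n₀] with n h2 h3
    have h4 := hR n
    rw [max_eq_left h3] at h4
    exact h2 _ _ _ _ _ h4
  · set g : ℝ := min (min ((σ Real.pi - j) / 2) ((j + 1 - σ Real.pi) / 2))
      (min ((σ Real.pi - σ 0) / 2) ((σ 0 + m - σ Real.pi) / 2)) with hg
    have hg0 : 0 < g := lt_min (lt_min (by linarith) (by linarith))
      (lt_min (by linarith) (by linarith))
    have g1 : g ≤ (σ Real.pi - j) / 2 := (min_le_left _ _).trans (min_le_left _ _)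
    have g2 : g ≤ (j + 1 - σ Real.pi) / 2 := (min_le_left _ _).trans (min_le_right _ _)
    have g3 : g ≤ (σ Real.pi - σ 0) / 2 := (min_le_right _ _).trans (min_le_left _ _)
    have g4 : g ≤ (σ 0 + m - σ Real.pi) / 2 := (min_le_right _ _).trans (min_le_right _ _)
    refine ⟨g * lam / 4, by positivity, ?_⟩
    filter_upwards [stair_ev (S₀ := S₀) (b := σ Real.pi) hq ha hlam hj hg0 (by linarith) (by linarith)
      (by linarith) (by linarith) hδ h0, eventually_ge_atTop n₀] with n h2 h3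
    have h4 := hR n
    rw [max_eq_left h3] at h4
    exact h2 _ _ _ _ _ h4

end Vale.Agent.P167.QG.Apx
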