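import Vale.Agent.P167.QG.Exd4

/-!
# P167, general `q`: the statement `QT.QuestionOnE`
-/

set_option autoImplicit false

open MeasureTheory Filter Topology Set

namespace Vale.Agent.P167.QG

open Vale.Agent.P167.QE (Cls CurveLimitOn wq)

/-- `QT.QuestionOnE` from the curve theorem for the class `StairU`. -/
theorem questionOnE_of {q : ℝ} (hq : 0 < q)
    (h : CurveLimitOn QT.StairU (Final.kappa q) (wq q)) : QT.QuestionOnE QT.StairU q :=
  questionE_of hq s_poly_stairU H327.s_stab h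

/-- `QT.QuestionOnE` from the curve theorem for one class `Stair d`. -/
theorem questionOnE_stair {q : ℝ} (hq : 0 < q) {d : Fin 4}
    (h : CurveLimitOn (QE.Stair d) (Final.kappa q) (wq q)) : QT.QuestionOnE QT.StairU q :=
  questionOnE_of hq (H264.Rot.curveLimitOn_stairU h)

/-- `QT.QuestionOnE` from the full question (for every class). -/
theorem questionOnE_of_question {K : Cls} {q : ℝ} (h : Final.Question q) :
    QT.QuestionOnE K q := by
  obtain ⟨Ω, mΩ, P, hP, γ, hγ, h⟩ := h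
  refine ⟨Ω, mΩ, P, hP, γ, hγ, fun Φ => ⟨(h Φ).1, fun ψ hψ => ?_⟩⟩
  obtain ⟨G, hG1, hG2, hG3⟩ := (h Φ).2 ψ hψ
  refine ⟨G, hG1, hG2, fun δ N k p S hA => ⟨(hG3 δ N k p S hA).1,
    fun _ => (hG3 δ N k p S hA).2⟩, ?_⟩
  obtain ⟨Φ', -, e1, e2, e3, -, hapx⟩ := H634.Apx.exap_all Φ
  have e1' : Final.dom Φ' = Final.dom Φ := e1
  have e2' : Φ' (Final.circ 0) = Φ (Final.circ 0) := e2
  have e3' : Φ' (Final.circ Real.pi) = Φ (Final.circ Real.pi) := e3
  have hψ' : Final.IsUniformizer Φ' ψ := by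
    obtain ⟨a1, a2, a3, a4, a5, a6⟩ := hψ
    refine ⟨a1, a2, ?_, a4, ?_, ?_⟩
    · rw [e1']; exact a3
    · rw [e2']; exact a5
    · rw [e3']; exact a6
  obtain ⟨G', hG1', hG2', hG3'⟩ := (h Φ').2 ψ hψ'
  have hGG : ∀ᵐ ω ∂P, G ω = G' ω := by
    filter_upwards [hG1, hG1'] with ω h1 h2
    ext t
    rcases lt_or_ge (t : ℝ) 1 with ht | ht
    · rw [h1.2.2 t ht, h2.2.2 t ht]
    · have h6 : t = 1 := Subtype.ext (le_antisymm t.2.2 ht)
      rw [h6, h1.2.1, h2.2.1, e3']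
  refine ⟨Φ', e1, e2, e3, fun δ hδ hδ0 => ?_⟩
  obtain ⟨N, k, p, S, hA⟩ := hapx δ hδ hδ0
  refine ⟨N, k, p, S, hA, fun η hη F hF => ?_⟩
  have h1 := (hG3' δ N k p S hA).2 η hη F hF
  have h2 : ∫ ω, F (G ω) ∂P = ∫ ω, F (G' ω) ∂P :=
    integral_congr_ae (hGG.mono fun ω hω => by simp only [hω])
  rw [h2]
  exact h1

end Vale.Agent.P167.QG
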