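import Vale.Agent.P167.QG.Apx5

/-!
# P167, general `q`: the classes `Stair d` are not empty
-/

set_option autoImplicit false

open Filter Topology Set

namespace Vale.Agent.P167.QG.Apx

open Vale.Agent.P167.E6
open Vale.Agent.P153.R2.Final (dom circ toC)
open Vale.Agent.P153.R2.R1 (toCH)

/-! ### The unit square -/

/-- The unit square. -/
def usq : ZMod 4 → ℤ × ℤ := ![(0, 0), (1, 0), (1, 1), (0, 1)]

theorem isPolygon_usq : IsPolygon usq := by
  refine ⟨by norm_num, by decide, ?_⟩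
  have h : ∀ i : ZMod 4, ∃ r : Fin 4, usq (i + 1) = usq i + dir r := by decide
  exact h

theorem step_usq (r : Fin 4) : usq (((r.val + 4 : ℕ) : ZMod 4) + 1) = usq ((r.val + 4 : ℕ) : ZMod 4) + dir r := by
  revert r
  decide

theorem encloses_usq : Encloses usq {(0, 0)} := by
  rintro ⟨x, y⟩ r
  constructor
  · rintro ⟨i, h1, h2⟩
    rw [← h1] at h2 ⊢
    clear h1 x y
    revert i r
    decide
  · rintro ⟨h1, -⟩
    rw [Finset.mem_singleton] at h1
    have h3 : ((x, y) : ℤ × ℤ) = -face (0, 0) r := by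
      have h4 : face (x, y) r = (x, y) + face (0, 0) r := by
        simp [face]
      rw [h4] at h1
      exact eq_neg_of_add_eq_zero_left h1
    rw [h3]
    clear h1 h3 x y
    revert r
    decide

/-! ### Similarities of the plane -/

/-- Multiplication by a complex number as a homeomorphism of `ℝ × ℝ`. -/
theorem exists_mul {w : ℂ} (hw : w ≠ 0) :
    ∃ M : (ℝ × ℝ) ≃ₜ (ℝ × ℝ), ∀ z, toC (M z) = w * toC z := by
  refine ⟨(toCH.trans (Homeomorph.mulLeft₀ w hw)).trans toCH.symm, fun z => ?_⟩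
  show toCH (toCH.symm (w * toCH z)) = _
  rw [toCH.apply_symm_apply]
  rfl

theorem rt_ne : rt ≠ 0 := by
  unfold rt
  intro h
  have := congrArg Complex.re h
  simp at this

/-- The Jordan domain of a polygon, rotated and scaled. -/
theorem exists_dom {m : ℕ} {q : ZMod m → ℤ × ℤ} {S₀ : Finset (ℤ × ℤ)} (hq : IsPolygon q)
    (hE : Encloses q S₀) {σ : ℝ → ℝ} (hc : Continuous σ) (hm : StrictMono σ)
    (hσ : ∀ t, σ (t + 2 * Real.pi) = σ t + m) {w : ℂ} (hw : w ≠ 0) :
    ∃ Φ : (ℝ × ℝ) ≃ₜ (ℝ × ℝ), ∀ t, toC (Φ (circ t)) = w * PF6 q 1 (σ t) := by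
  obtain ⟨Φ, hΦ, -⟩ := H634.Sch.sch_poly one_pos hq hE hc hm hσ
  obtain ⟨M, hM⟩ := exists_mul hw
  refine ⟨Φ.trans M, fun t => ?_⟩
  show toC (M (Φ (circ t))) = _
  rw [hM, hΦ]

/-- The classes `Stair d` are not empty. -/
theorem ne_stair (r : Fin 4) : (QE.Stair (r + 3)).Ne := by
  have hpi := Real.pi_pos
  set σ : ℝ → ℝ := fun t => 2 / Real.pi * t + (r.val + 5 / 2) with hσ
  have hc : Continuous σ := by fun_prop
  have hm : StrictMono σ := by
    intro a b hab
    simp only [hσ]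
    gcongr
  have hper : ∀ t, σ (t + 2 * Real.pi) = σ t + (4 : ℕ) := by
    intro t
    simp only [hσ]
    push_cast
    field_simp
    ring
  have h0 : σ 0 = r.val + 5 / 2 := by simp [hσ]
  have h1 : σ Real.pi = r.val + 9 / 2 := by
    simp only [hσ]
    field_simp
    ring
  obtain ⟨Φ, hΦ⟩ := exists_dom isPolygon_usq encloses_usq hc hm hper
    (w := ((1 : ℝ) : ℂ) * rt) (mul_ne_zero (by simp) rt_ne)
  obtain ⟨N, k, p, S, h2, h3⟩ := approx_stair isPolygon_usq encloses_usq hc hm hper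
    (by rw [h0]; positivity) (j := r.val + 4) (by rw [h1]; push_cast; linarith)
    (by rw [h1]; push_cast; linarith) (step_usq r) one_pos hΦ
    (δ := fun n => 1 / ((n : ℝ) + 1)) (fun n => by positivity)
    tendsto_one_div_add_atTop_nhds_zero_nat
  exact ⟨Φ, _, N, k, p, S, h2, h3⟩

/-- **The class `Stair 3` is not empty.** -/
theorem ne_stair3 : (QE.Stair 3).Ne := ne_stair 0

theorem ne_stair_all (d : Fin 4) : (QE.Stair d).Ne := by
  have e : ∀ d : Fin 4, d + 1 + 3 = d := by decide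
  have h := ne_stair (d + 1)
  rwa [e] at h

end Vale.Agent.P167.QG.Apx
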