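import Vale.Agent.P167.QG.Arg4

/-!
# P167, general `q`, Stage II: the outer part of the loop of the interface
-/

namespace Vale.Agent.P167.QG

open Vale.Agent.P167.E6 Vale.Agent.P167.E2

variable {n : ℕ} {p : ZMod n → ℤ × ℤ} {S : Finset (ℤ × ℤ)} {k : ℕ} {A : Finset (Sym2 (ℤ × ℤ))}

/-- The points of the loop. -/
noncomputable def um (p : ZMod n → ℤ × ℤ) (k : ℕ) (A : Finset (Sym2 (ℤ × ℤ))) (δ : ℝ) (j : ℕ) : ℂ :=
  mid δ (run p k A j)

/-- The vertices of the wired arc. -/
noncomputable def vw (p : ZMod n → ℤ × ℤ) (k : ℕ) (δ : ℝ) (i : ℕ) : ℂ :=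
  (δ : ℂ) * pt (p ((k + i : ℕ) : ZMod n))

theorem aux_dir : ∀ (a b : Fin 4) (s : ℕ), s < 4 → s + 1 < (a - b).val →
    b + Fin.ofNat 4 s ≠ a - 1 := by
  intro a b s hs
  interval_cases s <;> revert a b <;> decide

theorem not_cs (hp : IsPolygon p) {i : ZMod n} {s : ℕ} (hs : s + 1 < (ro p i - ri p i).val) :
    (p i, ri p i + Fin.ofNat 4 s) ≠ cs p := by
  intro h
  have h1 : i = -1 := hp.2.1 (congrArg Prod.fst h)
  subst h1
  have h2 := congrArg Prod.snd h
  exact aux_dir _ _ s (by have := (ro p (-1) - ri p (-1)).2; omega) hs h2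

theorem neg_one_eq (hk : 0 < n) : (-1 : ZMod n) = ((n - 1 : ℕ) : ZMod n) := by
  rw [Nat.cast_sub (by omega)]
  simp

/-- **The outer part of the loop** follows the wired arc. -/
theorem outer (hp : IsPolygon p) (hS : Encloses p S) (h0k : 0 < k) (hk : k < n)
    (hA : A ⊆ edges S) {δ : ℝ} (hδ : 0 < δ) {z : ℂ}
    (hz : ∀ i, k + i < n → 2 * δ < ‖vw p k δ i - z‖) (i : ℕ) (hi : k + i < n) :
    ∃ a, run p k A (len p k A + a) =
        (p ((k + i : ℕ) : ZMod n), ro p ((k + i : ℕ) : ZMod n) - 1) ∧
      (∑ t ∈ Finset.range (a + 1), Lg z (um p k A δ (len p k A - 1 + t))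
          (um p k A δ (len p k A - 1 + (t + 1))) =
        ∑ j ∈ Finset.range i, Lg z (vw p k δ j) (vw p k δ (j + 1)) +
          Lg z (vw p k δ i) (um p k A δ (len p k A + a)) -
          Lg z (vw p k δ 0) (um p k A δ (len p k A - 1))) ∧
      (∀ t ≤ a + 1, ∃ j, k + j < n ∧ ‖um p k A δ (len p k A - 1 + t) - vw p k δ j‖ ≤ δ / 2) ∧
      ∀ t < a, run p k A (len p k A + t) ≠ cs p := by
  have hω := wired_sub (k := k) hp hS hA
  have hL := two_le_len hp hS hk hA h0k
  set L := len p k A with hLdef
  -- the rotation around a vertex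
  have rot : ∀ (i : ZMod n) (N : ℕ), run p k A N = (p i, ri p i) →
      (∀ s, s < (ro p i - ri p i).val → run p k A (N + s) = (p i, ri p i + Fin.ofNat 4 s)) ∧
      0 < (ro p i - ri p i).val ∧
      run p k A (N + ((ro p i - ri p i).val - 1)) = (p i, ro p i - 1) := by
    intro i N hN
    have h0 : ro p i ≠ ri p i := (ri_ne_ro hp hS).symm
    have h1 : 0 < (ro p i - ri p i).val := by
      rw [Nat.pos_iff_ne_zero]
      intro h
      exact h0 (sub_eq_zero.1 (Fin.ext h))
    refine ⟨fun s hs => ?_, h1, ?_⟩
    · rw [run_add, hN]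
      exact around hp hS hω i s hs
    · rw [run_add, hN]
      exact around' hp hS hω i
  have dmid : ∀ N, ‖um p k A δ N - (δ : ℂ) * pt (run p k A N).1‖ = δ / 2 := fun N =>
    norm_mid_sub hδ _
  have dnext : ∀ N, ‖um p k A δ N - (δ : ℂ) * pt (run p k A (N + 1)).1‖ = δ / 2 := by
    intro N
    rw [run_succ]
    exact norm_mid_next hδ _ _
  induction i with
  | zero =>
    have e0 : run p k A L = (p ((k + 0 : ℕ) : ZMod n), ri p ((k + 0 : ℕ) : ZMod n)) := by
      rw [hLdef, run_len hp hS hk hA, Nat.add_zero]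
      rfl
    obtain ⟨r1, r2, r3⟩ := rot _ L e0
    set b := (ro p ((k + 0 : ℕ) : ZMod n) - ri p ((k + 0 : ℕ) : ZMod n)).val - 1 with hb
    have near : ∀ t ≤ b + 1, ‖um p k A δ (L - 1 + t) - vw p k δ 0‖ = δ / 2 := by
      intro t ht
      rcases Nat.eq_zero_or_pos t with rfl | hpos
      · have h1 := dnext (L - 1)
        rw [show L - 1 + 1 = L by omega, e0] at h1
        exact h1
      · have h1 := dmid (L - 1 + t)
        rw [show L - 1 + t = L + (t - 1) by omega, r1 (t - 1) (by omega)] at h1
        rw [show L - 1 + t = L + (t - 1) by omega]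
        exact h1
    refine ⟨b, r3, ?_, fun t ht => ⟨0, hi, (near t ht).le⟩, fun t ht => ?_⟩
    · rw [Finset.range_zero, Finset.sum_empty, zero_add]
      have h1 := near_chain (x := fun t => um p k A δ (L - 1 + t)) (c := vw p k δ 0) (z := z)
        (N := 0) (M := b + 1) (Nat.zero_le _) (fun t _ h2 => by
          have h3 := near t h2
          have h4 := hz 0 hi
          rw [h3]
          linarith)
      rw [← Finset.range_eq_Ico] at h1
      rw [show L - 1 + (b + 1) = L + b by omega] at h1
      exact h1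
    · rw [r1 t (by omega)]
      exact not_cs hp (by omega)
  | succ i ih =>
    obtain ⟨a, h1, h2, h3, h4⟩ := ih (by omega)
    set j : ZMod n := ((k + i : ℕ) : ZMod n) with hj
    have hj1 : ((k + (i + 1) : ℕ) : ZMod n) = j + 1 := by
      rw [hj]
      push_cast
      ring
    have e0 : run p k A (L + a + 1) = (p (j + 1), ri p (j + 1)) := by
      rw [run_succ, h1]
      have o1 : ahead (p j, ro p j - 1) ∈ wiredOpen p k A := by
        refine Or.inr ⟨k + i, by omega, by omega, ?_⟩
        rw [ahead]
        simp only [fin4_1]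
        rw [← ro_spec hp j]
      rw [next_open o1]
      simp only [fin4_1]
      rw [← ro_spec hp j]
      have o2 : ro p j - 1 - 1 = ri p (j + 1) := by
        rw [ri, add_sub_cancel_right]
        generalize ro p j = r
        revert r
        decide
      rw [o2]
    obtain ⟨r1, r2, r3⟩ := rot _ _ e0
    set b := (ro p (j + 1) - ri p (j + 1)).val - 1 with hb
    have ev : vw p k δ (i + 1) = (δ : ℂ) * pt (p (j + 1)) := by
      unfold vw
      rw [hj1]
    have near : ∀ t, a + 1 ≤ t → t ≤ a + 1 + b + 1 →
        ‖um p k A δ (L - 1 + t) - vw p k δ (i + 1)‖ = δ / 2 := by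
      intro t ht ht'
      rw [ev]
      rcases Nat.eq_or_lt_of_le ht with rfl | hlt
      · have h5 := dnext (L + a)
        rw [e0] at h5
        rw [show L - 1 + (a + 1) = L + a by omega]
        exact h5
      · have h5 := dmid (L - 1 + t)
        rw [show L - 1 + t = L + a + 1 + (t - (a + 2)) by omega, r1 _ (by omega)] at h5
        rw [show L - 1 + t = L + a + 1 + (t - (a + 2)) by omega]
        exact h5
    refine ⟨a + 1 + b, ?_, ?_, ?_, ?_⟩
    · rw [hj1, ← add_assoc, ← add_assoc]
      exact r3
    · have h5 := near_chain (x := fun t => um p k A δ (L - 1 + t)) (c := vw p k δ (i + 1))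
        (z := z) (N := a + 1) (M := a + 1 + b + 1) (by omega) (fun t g1 g2 => by
          have g3 := near t g1 g2
          have g4 := hz (i + 1) hi
          rw [g3]
          linarith)
      rw [show L - 1 + (a + 1 + b + 1) = L + (a + 1 + b) by omega,
        show L - 1 + (a + 1) = L + a by omega] at h5
      rw [Finset.range_eq_Ico] at h2
      rw [Finset.range_eq_Ico, ← Finset.sum_Ico_consecutive _ (Nat.zero_le (a + 1))
        (show a + 1 ≤ a + 1 + b + 1 by omega), h2, h5, Finset.sum_range_succ]
      -- the midpoint between the two vertices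
      have g1 : ‖vw p k δ (i + 1) - vw p k δ i‖ ≤ δ := by
        have q1 := near (a + 1) le_rfl (by omega)
        rw [show L - 1 + (a + 1) = L + a by omega] at q1
        have q2 := dmid (L + a)
        rw [h1] at q2
        have q3 : vw p k δ (i + 1) - vw p k δ i = (um p k A δ (L + a) - vw p k δ i) -
            (um p k A δ (L + a) - vw p k δ (i + 1)) := by ring
        rw [q3]
        refine (norm_sub_le _ _).trans ?_
        have q4 : ‖um p k A δ (L + a) - vw p k δ i‖ = δ / 2 := q2
        rw [q1, q4]
        linarith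
      have g2 : ‖um p k A δ (L + a) - vw p k δ i‖ = δ / 2 := by
        have q2 := dmid (L + a)
        rw [h1] at q2
        exact q2
      have g3 := hz i (by omega)
      have g4 := Lg_sub (z := z) (c := vw p k δ i) (x := vw p k δ (i + 1))
        (y := um p k A δ (L + a)) (by linarith) (by rw [g2]; linarith)
      rw [g4]
      ring
    · intro t ht
      rcases Nat.lt_or_ge t (a + 1) with hlt | hge
      · exact h3 t (by omega)
      · exact ⟨i + 1, hi, (near t hge ht).le⟩
    · intro t ht
      rcases lt_trichotomy t a with hlt | rfl | hgt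
      · exact h4 t hlt
      · rw [h1]
        intro h
        have h5 : j = -1 := hp.2.1 (congrArg Prod.fst h)
        rw [hj, neg_one_eq (by omega)] at h5
        have := cast_inj (by omega) (by omega) (by omega) h5
        omega
      · rw [show L + t = L + a + 1 + (t - (a + 1)) by omega, r1 _ (by omega)]
        exact not_cs hp (by omega)

end Vale.Agent.P167.QG
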