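import Vale.Agent.P167.QG.Arg2
import Vale.Agent.P167.QG.Arg3
import Vale.Agent.P167.QG.Arg5
import Vale.Agent.P167.H397.Q.Inc
import Vale.Agent.P167.E2.Intf

/-!
# P167, general `q`, Stage II: **(1b)** the interface winds around `z` iff the event `L` holds
-/

namespace Vale.Agent.P167.QG

open Vale.Agent.P167.E6 Vale.Agent.P167.E2
open Vale.Agent.P167.H397.Q (IsInc LZ S_ind isInc_poly abs_im_log_le)

/-- A vertex of a polygonal path is on the path. -/
theorem poly_at {c : C(unitInterval, ℂ)} {x : ℕ → ℂ} {m : ℕ} {z : ℂ} {D : ℝ}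
    (hc : ∀ t : unitInterval, c t = poly x m t) (hd : ∀ t, D ≤ dist (c t) z) {j : ℕ}
    (hj : j ≤ m) : D ≤ ‖x j - z‖ := by
  rcases Nat.eq_zero_or_pos m with rfl | hm
  · have h1 := hd 0
    rw [hc 0, poly_eq] at h1
    obtain rfl : j = 0 := by omega
    simp only [Set.Icc.coe_zero, zero_mul, lin_zero] at h1
    rwa [dist_eq_norm] at h1
  · have hm' : (0 : ℝ) < m := by exact_mod_cast hm
    have ht : (j : ℝ) / m ∈ unitInterval :=
      ⟨by positivity, by rw [div_le_one hm']; exact_mod_cast hj⟩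
    have h1 := hd ⟨_, ht⟩
    rw [hc ⟨_, ht⟩, poly_eq] at h1
    simp only at h1
    rw [div_mul_cancel₀ _ hm'.ne', lin_nat, dist_eq_norm] at h1
    exact h1

theorem slit_of_re {u : ℂ} (h : 0 < u.re) : u ∈ Complex.slitPlane :=
  Complex.mem_slitPlane_iff.2 (Or.inl h)

theorem isInc_eq {c : C(unitInterval, ℂ)} {x : ℕ → ℂ} {m : ℕ} {z a : ℂ} {D δ : ℝ} (hδ : 0 < δ)
    (hD : δ < D) (hc : ∀ t : unitInterval, c t = poly x m t) (hd : ∀ t, D ≤ dist (c t) z)
    (hx : ∀ j, j < m → ‖x (j + 1) - x j‖ ≤ δ) (ha : IsInc c z a) :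
    a = ∑ j ∈ Finset.range m, Lg z (x j) (x (j + 1)) := by
  have h1 : ∀ j ≤ m, D ≤ ‖x j - z‖ := fun j hj => poly_at hc hd hj
  refine ha.unique (isInc_poly m (fun j hj h => ?_) (fun j hj => ?_) hc)
  · have := h1 j hj
    rw [h, sub_self, norm_zero] at this
    linarith
  · refine slit_of_re (ratio_re ?_)
    have := h1 j hj.le
    have := hx j hj
    linarith

theorem s_ind : S_ind := by
  intro n p k S δ ρ A γ w z a b f hδ hρ h0k hk hp hS hA hγ hw hf hγz hwz ha hb
  classical
  have hL := two_le_len hp hS hk hA h0k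
  have hω := wired_sub (k := k) hp hS hA
  set L := len p k A with hLdef
  have hγc : ∀ t : unitInterval, γ t = poly (um p k A δ) (L - 1) t := by
    intro t
    rw [isInterface_unique hp hS hk hA hγ]
    rfl
  have hwc : ∀ t : unitInterval, w t = poly (vw p k δ) (n - 1 - k) t := hw
  have du : ∀ j ≤ L - 1, 2 * ρ ≤ ‖um p k A δ j - z‖ := fun j hj => poly_at hγc hγz hj
  have dv : ∀ i ≤ n - 1 - k, 2 * ρ ≤ ‖vw p k δ i - z‖ := fun i hi => poly_at hwc hwz hi
  have hu1 : ∀ j, ‖um p k A δ (j + 1) - um p k A δ j‖ ≤ δ := by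
    intro j
    unfold um
    rw [run_succ]
    exact norm_next_sub hδ _ _
  have hv1 : ∀ i, ‖vw p k δ (i + 1) - vw p k δ i‖ ≤ δ := by
    intro i
    have e : ((k + (i + 1) : ℕ) : ZMod n) = ((k + i : ℕ) : ZMod n) + 1 := by
      push_cast
      ring
    unfold vw
    rw [e, ro_spec hp, pt_add, mul_add, add_sub_cancel_left, norm_mul, norm_pt_dir, mul_one,
      Complex.norm_real, Real.norm_of_nonneg hδ.le]
  have ha' := isInc_eq hδ (by linarith) hγc hγz (fun j _ => hu1 j) ha
  have hb' := isInc_eq hδ (by linarith) hwc hwz (fun j _ => hv1 j) hb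
  -- the outer part
  obtain ⟨a', h1, h2, h3, h4⟩ := outer hp hS h0k hk hA hδ (z := z)
    (fun i hi => by have := dv i (by omega); linarith) (n - 1 - k) (by omega)
  rw [← hLdef] at h1 h2 h3 h4
  have hcs : run p k A (L + a') = cs p := by
    rw [h1]
    have e : ((k + (n - 1 - k) : ℕ) : ZMod n) = -1 := by
      rw [neg_one_eq (by omega)]
      congr 1
      omega
    rw [e]
    rfl
  set T := L + a' with hT
  have hTpos : 0 < T := by omega
  have humT : um p k A δ T = um p k A δ 0 := by
    unfold um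
    rw [hcs]
    rfl
  -- distances
  have dall : ∀ j ≤ T, 2 * ρ - δ ≤ ‖um p k A δ j - z‖ := by
    intro j hj
    rcases Nat.lt_or_ge j L with hlt | hge
    · have := du j (by omega)
      linarith
    · obtain ⟨i, hi, hd⟩ := h3 (j - (L - 1)) (by omega)
      rw [show L - 1 + (j - (L - 1)) = j by omega] at hd
      have h5 := dv i (by omega)
      have h6 : vw p k δ i - z = (um p k A δ j - z) - (um p k A δ j - vw p k δ i) := by ring
      have h7 := norm_sub_le (um p k A δ j - z) (um p k A δ j - vw p k δ i)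
      rw [← h6] at h7
      linarith
  set z' := fC δ f with hz'
  have dz : ‖z' - z‖ ≤ ρ + δ := by
    have h5 := norm_fC_sub hδ f
    have h6 : z' - z = (fC δ f - (δ : ℂ) * pt f) + ((δ : ℂ) * pt f - z) := by rw [hz']; ring
    rw [h6]
    refine (norm_add_le _ _).trans ?_
    rw [dist_eq_norm] at hf
    linarith
  have dz' : ∀ j ≤ T, δ < ‖um p k A δ j - z'‖ := by
    intro j hj
    have h5 := dall j hj
    have h6 : um p k A δ j - z = (um p k A δ j - z') + (z' - z) := by ring
    have h7 := norm_add_le (um p k A δ j - z') (z' - z)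
    rw [← h6] at h7
    linarith
  -- the total sum, seen from `z`
  have tot : ∑ j ∈ Finset.range T, Lg z (um p k A δ j) (um p k A δ (j + 1)) =
      a + b + (Lg z (vw p k δ (n - 1 - k)) (um p k A δ T) -
        Lg z (vw p k δ 0) (um p k A δ (L - 1))) := by
    rw [show T = (L - 1) + (a' + 1) by omega, Finset.sum_range_add]
    have e1 : ∑ t ∈ Finset.range (a' + 1), Lg z (um p k A δ (L - 1 + t))
        (um p k A δ (L - 1 + t + 1)) = ∑ t ∈ Finset.range (a' + 1),
          Lg z (um p k A δ (L - 1 + t)) (um p k A δ (L - 1 + (t + 1))) := rfl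
    rw [e1, h2, ← ha', ← hb', show L - 1 + (a' + 1) = L + a' by omega]
    ring
  -- the total sum, seen from `z'`
  have shift : ∑ j ∈ Finset.range T, Lg z' (um p k A δ j) (um p k A δ (j + 1)) =
      ∑ j ∈ Finset.range T, Lg z (um p k A δ j) (um p k A δ (j + 1)) := by
    rw [← sub_eq_zero, ← Finset.sum_sub_distrib]
    have e1 : ∀ j ∈ Finset.range T, Lg z' (um p k A δ j) (um p k A δ (j + 1)) -
        Lg z (um p k A δ j) (um p k A δ (j + 1)) =
        Complex.log ((um p k A δ (j + 1) - z') / (um p k A δ (j + 1) - z)) -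
          Complex.log ((um p k A δ j - z') / (um p k A δ j - z)) := by
      intro j hj
      rw [Finset.mem_range] at hj
      have q1 := dall j hj.le
      have q2 := dall (j + 1) hj
      have q3 := dz' j hj.le
      have q4 := hu1 j
      exact Lg_shift (by linarith) (by linarith) (by linarith) (by linarith)
    rw [Finset.sum_congr rfl e1,
      Finset.sum_range_sub (fun j => Complex.log ((um p k A δ j - z') / (um p k A δ j - z))), humT,
      sub_self]
  -- the loop
  set ω := H192.cfg (wiredOpen p k A) with hωdef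
  set e0 := H192.me (cs p) with he0
  have hit : ∀ j, (nx ω)^[j] e0 = H192.me (run p k A j) := fun j =>
    H192.nx_cfg_iterate _ _ j
  have hret : ∀ j, 0 < j → j < T → run p k A j ≠ cs p := by
    intro j hj0 hjT hc
    rcases Nat.lt_or_ge j L with hlt | hge
    · have h5 : run p k A (L - j) = ce p k := by
        have h6 : run p k A L = run p k A (L - j) := by
          conv_lhs => rw [show L = j + (L - j) by omega, run_add, hc]
          rfl
        rw [← h6, hLdef, run_len hp hS hk hA]
      have h7 := len_min hp hS hk hA (j := L - j) (by omega) h5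
      omega
    · have h5 := h4 (j - L) (by omega)
      rw [show L + (j - L) = j by omega] at h5
      exact h5 hc
  have hM : (nx ω)^[T] e0 = e0 := by rw [hit, hcs]
  have hinj : ∀ i < T, ∀ j < T, (nx ω)^[i] e0 = (nx ω)^[j] e0 → i = j := by
    intro i hi j hj hij
    by_contra hne
    wlog hlt : i < j generalizing i j
    · exact this j hj i hi hij.symm (Ne.symm hne) (by omega)
    rw [hit, hit] at hij
    have h5 := H192.me_inj hij
    have h6 : run p k A (j - i) = cs p := by
      have h7 : (next (wiredOpen p k A))^[i] (run p k A (j - i)) =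
          (next (wiredOpen p k A))^[i] (run p k A 0) := by
        rw [← run_add, ← run_add, zero_add, Nat.sub_add_cancel hlt.le]
        exact h5.symm
      exact (next_injective _).iterate i h7
    exact hret (j - i) (by omega) (by omega) h6
  set ℓ : Finset Ed := (Finset.range T).image (fun j => (nx ω)^[j] e0) with hℓdef
  have hmem : ∀ e, e ∈ ℓ ↔ ∃ j < T, (nx ω)^[j] e0 = e := by
    intro e
    rw [hℓdef, Finset.mem_image]
    simp only [Finset.mem_range]
  have hℓ : IsLoop ω ℓ := by
    refine ⟨e0, fun e => ?_⟩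
    rw [hmem]
    constructor
    · rintro ⟨j, -, hj⟩
      exact ⟨j, hj⟩
    · rintro ⟨j, hj⟩
      refine ⟨j % T, Nat.mod_lt _ hTpos, ?_⟩
      have hper : Function.IsPeriodicPt (nx ω) T e0 := hM
      rw [hper.iterate_mod_apply]
      exact hj
  have he0ℓ : e0 ∈ ℓ := (hmem e0).2 ⟨0, hTpos, rfl⟩
  have hodd : Odd ((H192.rf f).1 + (H192.rf f).2) := Int.not_even_iff_odd.1 (H192.odd_rf f)
  have hW := sum_arg hM hinj hmem (H192.rf f)
  have hLZ := LZ_iff hℓ he0ℓ (dc_inf hp hS hω) (fun e he => by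
    obtain ⟨j, -, hj⟩ := (hmem e).1 he
    exact ⟨j, hj⟩) hodd
  rw [H192.ls_me] at hLZ
  change (ω ∈ LZ (H192.ro (p (-1))) (H192.rf f) ∧ W ℓ (H192.rf f) = 1) ∨
    (ω ∉ LZ (H192.ro (p (-1))) (H192.rf f) ∧ W ℓ (H192.rf f) = 0) at hLZ
  -- the sum of the increments
  have key : 2 * Real.pi * (W ℓ (H192.rf f) : ℝ) =
      (a + b).im + ((Lg z (vw p k δ (n - 1 - k)) (um p k A δ T)).im -
        (Lg z (vw p k δ 0) (um p k A δ (L - 1))).im) := by
    rw [← hW]
    have e1 : ∀ j ∈ Finset.range T,
        (Complex.log ((ctr (hdv ((nx ω)^[j + 1] e0)) - sC (H192.rf f)) /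
          (ctr (hdv ((nx ω)^[j] e0)) - sC (H192.rf f)))).im =
        (Lg z' (um p k A δ j) (um p k A δ (j + 1))).im := by
      intro j _
      rw [hit, hit, ratio_eq hδ]
      rfl
    rw [Finset.sum_congr rfl e1, ← Complex.im_sum, shift, tot]
    simp only [Complex.add_im, Complex.sub_im]
  -- the two small terms
  have small : ∀ u v : ℂ, ‖u - v‖ ≤ δ / 2 → 2 * ρ ≤ ‖v - z‖ → |(Lg z v u).im| ≤ 1 / 2 := by
    intro u v huv hv
    have h0 : v - z ≠ 0 := by
      intro h0
      rw [h0, norm_zero] at hv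
      linarith
    have h5 : ‖(u - z) / (v - z) - 1‖ ≤ 1 / 4 := by
      have e : (u - z) / (v - z) - 1 = (u - v) / (v - z) := by
        field_simp
        ring
      rw [e, norm_div, div_le_iff₀ (norm_pos_iff.2 h0)]
      linarith
    have h6 := abs_im_log_le (by norm_num) h5
    unfold Lg
    linarith
  have s1 : |(Lg z (vw p k δ (n - 1 - k)) (um p k A δ T)).im| ≤ 1 / 2 := by
    refine small _ _ ?_ (dv _ le_rfl)
    have h5 := norm_mid_sub hδ (run p k A T)
    have h6 : (run p k A T).1 = p ((k + (n - 1 - k) : ℕ) : ZMod n) := by rw [h1]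
    rw [h6] at h5
    exact h5.le
  have s2 : |(Lg z (vw p k δ 0) (um p k A δ (L - 1))).im| ≤ 1 / 2 := by
    refine small _ _ ?_ (dv _ (Nat.zero_le _))
    have h5 := norm_mid_next hδ (wiredOpen p k A) (run p k A (L - 1))
    rw [← run_succ, show L - 1 + 1 = L by omega, hLdef, run_len hp hS hk hA] at h5
    have h6 : vw p k δ 0 = (δ : ℂ) * pt (ce p k).1 := by
      unfold vw
      rw [Nat.add_zero]
      rfl
    rw [h6]
    exact h5.le
  have s1' := abs_le.1 s1
  have s2' := abs_le.1 s2
  rcases hLZ with ⟨q1, q2⟩ | ⟨q1, q2⟩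
  · left
    refine ⟨q1, ?_⟩
    rw [q2, Int.cast_one, mul_one] at key
    rw [abs_le]
    constructor <;> linarith [s1'.1, s1'.2, s2'.1, s2'.2]
  · right
    refine ⟨q1, ?_⟩
    rw [q2, Int.cast_zero, mul_zero] at key
    rw [abs_le]
    constructor <;> linarith [s1'.1, s1'.2, s2'.1, s2'.2]

end Vale.Agent.P167.QG
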