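import Vale.Agent.P167.QG.Dmp
import Vale.Agent.P167.H192.Q.RatB

/-!
# P167, general `q`, blocks Q-CUTP and Q-DMP: the cut in the slit domains

`dom_mix`: local functions next to a free boundary of any shape, seen from far away.
`cut_ratio`: the probabilities of a closed cut in two domains which agree around the cut.
`cexW_cut`: conditional expectations with a closed cut, along the interface.
-/

set_option linter.unusedVariables false

namespace Vale.Agent.P167.QG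

open Finset MeasureTheory Vale.Agent.P167.FK Vale.Agent.P167.FKA Vale.Agent.P167.H192.Q
open Vale.Agent.P167.H519 (Rat)
open Vale.Agent.P167.E6 (wiredOpen edges Encloses IsPolygon)
open Vale.Agent.P167.E2 (run)
open Vale.Agent.P167.H718 (Dq etaQ wE)
open Vale.Agent.P167.QE (ExW cexW)
open Vale.Agent.P167.H411 (cyl exn Qc)

variable {Q : ℝ} {D D' A B I K K' V : Finset (ℤ × ℤ)} {η η' ξ : Cfg} {x y : ℤ × ℤ} {r R : ℤ}

/-- The error term. -/
noncomputable def err (α C : ℝ) (r R : ℤ) : ℝ := (2 + 2 ^ α) * C * ((r : ℝ) / R) ^ (α / 2)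

/-- The configuration with closed squares in `K`. -/
def clos (K : Finset (ℤ × ℤ)) (η : Cfg) : Cfg := fun v => if v ∈ K then false else η v

theorem clos_eq_cf (K : Finset (ℤ × ℤ)) (η : Cfg) : clos K η = cf K η ∅ := by
  funext v
  unfold clos cf
  by_cases h : v ∈ K
  · simp [h]
  · simp [h]

theorem good_clos (hη : Good η) (K : Finset (ℤ × ℤ)) : Good (clos K η) := by
  rw [clos_eq_cf]
  exact f_good.1 K η ∅ hη

/-- Local functions next to a free boundary of any shape. -/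
theorem dom_mix (hQ : 1 ≤ Q) {α C : ℝ} (hα : 0 < α) (hC : 0 < C) (h : ArmDec Q α C) {L : ℤ}
    (hL : Rat Q L) (hr : 1 ≤ r) (hrR : L * r ≤ R) (hVD : V ⊆ D) (hV : V ⊆ Bq x r)
    {F : Cfg → ℝ} (hF0 : ∀ ω, 0 ≤ F ω) (hFV : Loc V F) (hη : Good η) (hfr : Fr x R D η) :
    |Ex Q D η F - Ex Q (D ∩ Bq x R) eta0 F| ≤ err α C r R * Ex Q (D ∩ Bq x R) eta0 F := by
  have hQ0 : 0 < Q := by linarith
  have hrR1 : r ≤ R := by have := hL.1; nlinarith
  set A := D ∩ Bq x R with hA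
  have hAD : A ⊆ D := Finset.inter_subset_left
  have hVA : V ⊆ A := Finset.subset_inter hVD (hV.trans (H167.Q.bq_mono hrR1))
  have key : ∀ S, |Ex Q A (cf D η S) F - Ex Q A eta0 F| ≤ err α C r R * Ex Q A eta0 F := by
    intro S
    refine mix_bdy hQ hα hC h hL hr hrR hVA hV hF0 hFV (f_good.1 D η S hη) ?_
    intro v hv hvA
    have hvD : v ∉ D := fun hvD => hvA (Finset.mem_inter.2 ⟨hvD, hv⟩)
    rw [cf_out hvD]
    exact hfr v hv hvD
  rw [H259.f_markov Q A D η F hQ0 hAD hη]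
  have h1 : Ex Q D η (fun ω => Ex Q A ω F) ≤ (1 + err α C r R) * Ex Q A eta0 F := by
    rw [← Ex_const hQ0 (D := D) (η := η) ((1 + err α C r R) * Ex Q A eta0 F)]
    refine Ex_mono hQ0 fun S _ => ?_
    have := (abs_le.1 (key S)).2
    linarith
  have h2 : (1 - err α C r R) * Ex Q A eta0 F ≤ Ex Q D η (fun ω => Ex Q A ω F) := by
    rw [← Ex_const hQ0 (D := D) (η := η) ((1 - err α C r R) * Ex Q A eta0 F)]
    refine Ex_mono hQ0 fun S _ => ?_
    have := (abs_le.1 (key S)).1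
    linarith
  rw [abs_le]
  constructor <;> linarith

theorem ratio_aux {a b m e : ℝ} (hm : 0 < m) (he0 : 0 ≤ e) (he : e ≤ 1 / 2) (ha : |a - m| ≤ e * m)
    (hb : |b - m| ≤ e * m) : |a / b - 1| ≤ 4 * e := by
  rw [abs_le] at ha hb
  have hb0 : m / 2 ≤ b := by nlinarith [hb.1]
  have hb1 : 0 < b := by linarith
  rw [abs_le]
  constructor
  · rw [neg_le_sub_iff_le_add, ← sub_le_iff_le_add, le_div_iff₀ hb1]
    nlinarith [ha.1, hb.2]
  · rw [sub_le_iff_le_add, div_le_iff₀ hb1]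
    nlinarith [ha.2, hb.1]

/-- **Two domains which agree around a closed cut.** -/
theorem cut_ratio (hQ : 1 ≤ Q) {α C : ℝ} (hα : 0 < α) (hC : 0 < C) (h : ArmDec Q α C) {L : ℤ}
    (hL : Rat Q L) (hr : 1 ≤ r) (hrR : L * r ≤ R) (hK : K ⊆ Bq x r) (hKD : K ⊆ D)
    (hDD : D ∩ Bq x R = D' ∩ Bq x R) (hη : Good η) (hη' : Good η') (hfr : Fr x R D η)
    (hfr' : Fr x R D' η') (he : err α C r R ≤ 1 / 2) :
    |Pr Q D η (Cld K) / Pr Q D' η' (Cld K) - 1| ≤ 4 * err α C r R := by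
  have hQ0 : 0 < Q := by linarith
  have hrR1 : r ≤ R := by have := hL.1; nlinarith
  have hR0 : (0 : ℝ) < R := by exact_mod_cast (by omega : 0 < R)
  have hr0 : (0 : ℝ) < r := by exact_mod_cast (by omega : 0 < r)
  have hKA : K ⊆ D ∩ Bq x R := Finset.subset_inter hKD (hK.trans (H167.Q.bq_mono hrR1))
  have hKD' : K ⊆ D' := by
    rw [hDD] at hKA
    exact hKA.trans Finset.inter_subset_left
  have he0 : 0 ≤ err α C r R := by
    unfold err
    positivity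
  have hm : 0 < Ex Q (D ∩ Bq x R) eta0 ((Cld K).indicator 1) := pr_cld_pos hQ0 hKA eta0
  have h1 := dom_mix hQ hα hC h hL hr hrR hKD hK (ind_nonneg _) (loc_cld K) hη hfr
  have h2 := dom_mix hQ hα hC h hL hr hrR hKD' hK (ind_nonneg _) (loc_cld K) hη' hfr'
  rw [← hDD] at h2
  exact ratio_aux hm he0 he h1 h2

/-- Closed sets of squares, one after the other. -/
theorem pr_cld_union (hQ : 0 < Q) (hη : Good η) (hKD : K ⊆ D) (hKK : Disjoint K K') :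
    Pr Q D η (Cld (K ∪ K')) = Pr Q D η (Cld K) * Pr Q (D \ K) (clos K η) (Cld K') := by
  have h1 := Ex_cld hQ hη hKD ((Cld K').indicator 1)
  unfold Pr at h1 ⊢
  rw [show Ex Q (D \ K) (clos K η) ((Cld K').indicator 1) =
    Ex Q (D \ K) (fun v => if v ∈ K then false else η v) ((Cld K').indicator 1) from rfl, ← h1]
  refine Ex_congr fun S _ => ?_
  by_cases h2 : cf D η S ∈ Cld K
  · by_cases h3 : cf D η S ∈ Cld K'
    · have h4 : cf D η S ∈ Cld (K ∪ K') := fun v hv =>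
        (Finset.mem_union.1 hv).elim (h2 v) (h3 v)
      rw [Set.indicator_of_mem h2, Set.indicator_of_mem h3, Set.indicator_of_mem h4]
      simp
    · have h4 : cf D η S ∉ Cld (K ∪ K') := fun h4 => h3 fun v hv =>
        h4 v (Finset.mem_union_right _ hv)
      rw [Set.indicator_of_notMem h3, Set.indicator_of_notMem h4, mul_zero]
  · have h4 : cf D η S ∉ Cld (K ∪ K') := fun h4 => h2 fun v hv =>
      h4 v (Finset.mem_union_left _ hv)
    rw [Set.indicator_of_notMem h2, Set.indicator_of_notMem h4, zero_mul]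

/-- **Two cuts.** -/
theorem cut_ratio2 (hQ : 1 ≤ Q) {α C : ℝ} (hα : 0 < α) (hC : 0 < C) (h : ArmDec Q α C) {L : ℤ}
    (hL : Rat Q L) (hr : 1 ≤ r) (hrR : L * r ≤ R) (hK : K ⊆ Bq x r) (hKD : K ⊆ D)
    (hK' : K' ⊆ Bq y r) (hKD' : K' ⊆ D) (hxy : Disjoint (Bq x R) (Bq y R))
    (hDD : D ∩ Bq x R = D' ∩ Bq x R) (hDD' : D ∩ Bq y R = D' ∩ Bq y R) (hη : Good η)
    (hη' : Good η') (hfr : Fr x R D η) (hfr' : Fr x R D' η') (hfy : Fr y R D η)
    (hfy' : Fr y R D' η') (he : err α C r R ≤ 1 / 2) :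
    |Pr Q D η (Cld (K ∪ K')) / Pr Q D' η' (Cld (K ∪ K')) - 1| ≤ 24 * err α C r R := by
  have hQ0 : 0 < Q := by linarith
  have hrR1 : r ≤ R := by have := hL.1; nlinarith
  have hR0 : (0 : ℝ) < R := by exact_mod_cast (by omega : 0 < R)
  have hr0 : (0 : ℝ) < r := by exact_mod_cast (by omega : 0 < r)
  have he0 : 0 ≤ err α C r R := by
    unfold err
    positivity
  have hKx : K ⊆ Bq x R := hK.trans (H167.Q.bq_mono hrR1)
  have hKy : K' ⊆ Bq y R := hK'.trans (H167.Q.bq_mono hrR1)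
  have hKK : Disjoint K K' := Finset.disjoint_of_subset_left hKx
    (Finset.disjoint_of_subset_right hKy hxy)
  have hKyd : Disjoint K (Bq y R) := Finset.disjoint_of_subset_left hKx hxy
  have hKE : K ⊆ D' := fun v hv => (Finset.mem_inter.1 (hDD ▸ Finset.mem_inter.2 ⟨hKD hv, hKx hv⟩ :
    v ∈ D' ∩ Bq x R)).1
  have hD1 : (D \ K) ∩ Bq y R = (D' \ K) ∩ Bq y R := by
    ext v
    have h1 : v ∈ D ∩ Bq y R ↔ v ∈ D' ∩ Bq y R := by rw [hDD']
    simp only [Finset.mem_inter, Finset.mem_sdiff] at h1 ⊢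
    tauto
  have hf1 : ∀ {E : Finset (ℤ × ℤ)} {θ : Cfg}, Fr y R E θ → Fr y R (E \ K) (clos K θ) := by
    intro E θ hE v hv hvE
    have hvK : v ∉ K := fun h => Finset.disjoint_left.1 hKyd h hv
    have h2 : v ∉ E := fun h => hvE (Finset.mem_sdiff.2 ⟨h, hvK⟩)
    show (if v ∈ K then false else θ v) = false
    rw [if_neg hvK]
    exact hE v hv h2
  have hK2 : K' ⊆ D \ K := fun v hv => Finset.mem_sdiff.2
    ⟨hKD' hv, fun h => Finset.disjoint_left.1 hKK h hv⟩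
  have h1 := cut_ratio hQ hα hC h hL hr hrR hK hKD hDD hη hη' hfr hfr' he
  have h2 := cut_ratio hQ hα hC h hL hr hrR hK' hK2 hD1 (good_clos hη K) (good_clos hη' K)
    (hf1 hfy) (hf1 hfy') he
  rw [pr_cld_union hQ0 hη hKD hKK, pr_cld_union hQ0 hη' hKE hKK, mul_div_mul_comm]
  set a := Pr Q D η (Cld K) / Pr Q D' η' (Cld K)
  set b := Pr Q (D \ K) (clos K η) (Cld K') / Pr Q (D' \ K) (clos K η') (Cld K')
  have h3 : a * b - 1 = (a - 1) * (b - 1) + (a - 1) + (b - 1) := by ring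
  rw [h3]
  have h4 : |(a - 1) * (b - 1)| ≤ 16 * err α C r R := by
    rw [abs_mul]
    calc |a - 1| * |b - 1| ≤ (4 * err α C r R) * (4 * err α C r R) :=
          mul_le_mul h1 h2 (abs_nonneg _) (by positivity)
      _ ≤ 16 * err α C r R := by nlinarith
  calc |(a - 1) * (b - 1) + (a - 1) + (b - 1)|
      ≤ |(a - 1) * (b - 1)| + |a - 1| + |b - 1| := abs_add_three _ _ _
    _ ≤ 24 * err α C r R := by linarith

/-! ### Along the interface -/

/-- The unexplored domain. -/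
noncomputable def Dt {n : ℕ} (p : ZMod n → ℤ × ℤ) (k : ℕ) (S : Finset (ℤ × ℤ))
    (A : Finset (Sym2 (ℤ × ℤ))) (j : ℕ) : Finset (ℤ × ℤ) :=
  Dq S p k \ H161.Rd p k S A j

theorem good_wired {n : ℕ} {p : ZMod n → ℤ × ℤ} {k : ℕ} {S : Finset (ℤ × ℤ)}
    {A : Finset (Sym2 (ℤ × ℤ))} (hA : A ⊆ edges S) : Good (H192.cfg (wiredOpen p k A)) := by
  obtain ⟨T, -, hT⟩ := exists_cf (p := p) (k := k) hA
  rw [hT]
  exact f_good.1 _ _ _ H718.good_etaQ

/-- **Conditional expectations with a closed cut.** -/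
theorem cexW_cut {q : ℝ} (hq : 0 < q) (δ : ℕ → ℝ) (N k : ℕ → ℕ) (p : ∀ n, ZMod (N n) → ℤ × ℤ)
    (S : ℕ → Finset (ℤ × ℤ)) (ψn : ℕ → ℂ → ℂ) (n : ℕ) (hp : IsPolygon (p n))
    (hE : Encloses (p n) (S n)) (Φ : Cfg → ℝ) {A : Finset (Sym2 (ℤ × ℤ))}
    (hA : A ⊆ edges (S n)) (j : ℕ) {K : Finset (ℤ × ℤ)} (hK : K ⊆ Dt (p n) (k n) (S n) A j) :
    cexW (exn δ N k p S ψn n) (fun A' => Final.weight q (p n) (k n) (S n) A')
        (fun A' => (Cld K).indicator 1 (H192.cfg (wiredOpen (p n) (k n) A')) *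
          Φ (H192.cfg (wiredOpen (p n) (k n) A'))) A j =
      Pr (√q) (Dt (p n) (k n) (S n) A j) (H192.cfg (wiredOpen (p n) (k n) A)) (Cld K) *
        Ex (√q) (Dt (p n) (k n) (S n) A j \ K)
          (clos K (H192.cfg (wiredOpen (p n) (k n) A))) Φ := by
  rw [cexW_exn hq δ N k p S ψn n hp hE (fun ω => (Cld K).indicator 1 ω * Φ ω) hA j]
  exact Ex_cld (Real.sqrt_pos.2 hq) (good_wired hA) hK Φ

/-- The unexplored domain around a cut which is far from the explored squares and from the wired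
arc. -/
theorem Dt_inter {n : ℕ} {p : ZMod n → ℤ × ℤ} {k : ℕ} {S : Finset (ℤ × ℤ)}
    {A : Finset (Sym2 (ℤ × ℤ))} {j : ℕ} {x : ℤ × ℤ} {R : ℤ}
    (hR : ∀ v ∈ Bq x R, v ∉ H161.Rd p k S A j) :
    Dt p k S A j ∩ Bq x R = Dq S p k ∩ Bq x R := by
  ext v
  simp only [Dt, Finset.mem_inter, Finset.mem_sdiff]
  constructor
  · rintro ⟨⟨h1, -⟩, h2⟩
    exact ⟨h1, h2⟩
  · rintro ⟨h1, h2⟩
    exact ⟨⟨h1, hR v h2⟩, h2⟩

theorem Dt_fr {n : ℕ} {p : ZMod n → ℤ × ℤ} {k : ℕ} {S : Finset (ℤ × ℤ)}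
    {A : Finset (Sym2 (ℤ × ℤ))} (hA : A ⊆ edges S) {j : ℕ} {x : ℤ × ℤ} {R : ℤ}
    (hR : ∀ v ∈ Bq x R, v ∉ H161.Rd p k S A j)
    (hfr : Fr x R (Dq S p k) (etaQ p k)) :
    Fr x R (Dt p k S A j) (H192.cfg (wiredOpen p k A)) := by
  intro v hv hvD
  have h1 : v ∉ Dq S p k := fun h => hvD (Finset.mem_sdiff.2 ⟨h, hR v hv⟩)
  rw [wired_out hA h1]
  exact hfr v hv h1

/-- **The cut in the slit domain.** -/
theorem cut_t {q : ℝ} (hq : 1 ≤ q) {α C : ℝ} (hα : 0 < α) (hC : 0 < C)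
    (h : ArmDec (√q) α C) {L : ℤ} (hL : Rat (√q) L) (hr : 1 ≤ r) (hrR : L * r ≤ R)
    {n : ℕ} {p : ZMod n → ℤ × ℤ} {k : ℕ} {S : Finset (ℤ × ℤ)} {A : Finset (Sym2 (ℤ × ℤ))}
    (hA : A ⊆ edges S) {j : ℕ} (hR : ∀ v ∈ Bq x R, v ∉ H161.Rd p k S A j)
    (hfr : Fr x R (Dq S p k) (etaQ p k)) (hK : K ⊆ Bq x r) (hKD : K ⊆ Dq S p k)
    (he : err α C r R ≤ 1 / 2) :
    |Pr (√q) (Dt p k S A j) (H192.cfg (wiredOpen p k A)) (Cld K) /
      Pr (√q) (Dq S p k) (etaQ p k) (Cld K) - 1| ≤ 4 * err α C r R := by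
  have hQ : 1 ≤ √q := Real.one_le_sqrt.2 hq
  have hrR1 : r ≤ R := by have := hL.1; nlinarith
  have hKt : K ⊆ Dt p k S A j := fun v hv =>
    Finset.mem_sdiff.2 ⟨hKD hv, hR v (H167.Q.bq_mono hrR1 (hK hv))⟩
  exact cut_ratio hQ hα hC h hL hr hrR hK hKt (Dt_inter hR) (good_wired hA) H718.good_etaQ
    (Dt_fr hA hR hfr) hfr he

/-- **Two cuts in the slit domain.** -/
theorem cut_t2 {q : ℝ} (hq : 1 ≤ q) {α C : ℝ} (hα : 0 < α) (hC : 0 < C)
    (h : ArmDec (√q) α C) {L : ℤ} (hL : Rat (√q) L) (hr : 1 ≤ r) (hrR : L * r ≤ R)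
    {n : ℕ} {p : ZMod n → ℤ × ℤ} {k : ℕ} {S : Finset (ℤ × ℤ)} {A : Finset (Sym2 (ℤ × ℤ))}
    (hA : A ⊆ edges S) {j : ℕ} (hR : ∀ v ∈ Bq x R, v ∉ H161.Rd p k S A j)
    (hR' : ∀ v ∈ Bq y R, v ∉ H161.Rd p k S A j)
    (hfr : Fr x R (Dq S p k) (etaQ p k)) (hfr' : Fr y R (Dq S p k) (etaQ p k))
    (hxy : Disjoint (Bq x R) (Bq y R)) (hK : K ⊆ Bq x r) (hKD : K ⊆ Dq S p k)
    (hK' : K' ⊆ Bq y r) (hKD' : K' ⊆ Dq S p k) (he : err α C r R ≤ 1 / 2) :
    |Pr (√q) (Dt p k S A j) (H192.cfg (wiredOpen p k A)) (Cld (K ∪ K')) /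
      Pr (√q) (Dq S p k) (etaQ p k) (Cld (K ∪ K')) - 1| ≤ 24 * err α C r R := by
  have hQ : 1 ≤ √q := Real.one_le_sqrt.2 hq
  have hrR1 : r ≤ R := by have := hL.1; nlinarith
  have hKt : K ⊆ Dt p k S A j := fun v hv =>
    Finset.mem_sdiff.2 ⟨hKD hv, hR v (H167.Q.bq_mono hrR1 (hK hv))⟩
  have hKt' : K' ⊆ Dt p k S A j := fun v hv =>
    Finset.mem_sdiff.2 ⟨hKD' hv, hR' v (H167.Q.bq_mono hrR1 (hK' hv))⟩
  exact cut_ratio2 hQ hα hC h hL hr hrR hK hKt hK' hKt' hxy (Dt_inter hR) (Dt_inter hR')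
    (good_wired hA) H718.good_etaQ (Dt_fr hA hR hfr) hfr (Dt_fr hA hR' hfr') hfr' he

/-- The error term is small. -/
theorem exists_err {α C : ℝ} (hα : 0 < α) (hC : 0 < C) {ε : ℝ} (hε : 0 < ε) :
    ∃ s : ℝ, 0 < s ∧ ∀ r R : ℤ, 0 < r → (r : ℝ) ≤ s * R → err α C r R ≤ ε := by
  have h1 : 0 < (2 + 2 ^ α) * C := by positivity
  refine ⟨(ε / ((2 + 2 ^ α) * C)) ^ (2 / α), by positivity, fun r R hr hrR => ?_⟩
  have hr0 : (0 : ℝ) < r := by exact_mod_cast hr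
  have hs : 0 < (ε / ((2 + 2 ^ α) * C)) ^ (2 / α) := by positivity
  have hR0 : (0 : ℝ) < R := by
    by_contra h
    push Not at h
    have := mul_nonpos_of_nonneg_of_nonpos hs.le h
    linarith
  have h2 : (r : ℝ) / R ≤ (ε / ((2 + 2 ^ α) * C)) ^ (2 / α) := by
    rw [div_le_iff₀ hR0]
    exact hrR
  have h3 : ((r : ℝ) / R) ^ (α / 2) ≤ ε / ((2 + 2 ^ α) * C) := by
    calc ((r : ℝ) / R) ^ (α / 2)
        ≤ ((ε / ((2 + 2 ^ α) * C)) ^ (2 / α)) ^ (α / 2) :=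
          Real.rpow_le_rpow (by positivity) h2 (by positivity)
      _ = ε / ((2 + 2 ^ α) * C) := by
          rw [← Real.rpow_mul (by positivity)]
          have : 2 / α * (α / 2) = 1 := by field_simp
          rw [this, Real.rpow_one]
  unfold err
  calc (2 + 2 ^ α) * C * ((r : ℝ) / R) ^ (α / 2)
      ≤ (2 + 2 ^ α) * C * (ε / ((2 + 2 ^ α) * C)) := mul_le_mul_of_nonneg_left h3 h1.le
    _ = ε := by field_simp

end Vale.Agent.P167.QG
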