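import Vale.Agent.P167.QG.Exd2
import Vale.Agent.P167.H634.Apx.Sha
import Vale.Agent.P167.QT.OnE

/-!
# P167, general `q`: every marked Jordan domain has approximations along which the interfaces
converge to `SLE_κ(q)`
-/

set_option autoImplicit false

open MeasureTheory Filter Topology Set

namespace Vale.Agent.P167.QG

open Vale.Agent.P167.E6
open Vale.Agent.P153.R2.Final (dom circ toC IsUniformizer)
open Vale.Agent.P167.QE (Cls CurveLimitOn wq wq_pos lawW lawW_prob meanW meanW_eq)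
open Vale.Agent.P167.H199.C (IsG ConvTo CL S_poly S_stab HasApx)
open Vale.Agent.P167.SLE (Cf)
open scoped BoundedContinuousFunction

/-- The question for the parameter `q`, with convergence for the approximations in the class `K`,
and, for every Jordan domain with two marked boundary points and all meshes, for suitable
approximations (`Φ'` has the same domain and the same marks as `Φ`; it is necessary, because there
are approximations only if `Φ'` preserves the orientation). -/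
def QuestionE (K : Cls) (q : ℝ) : Prop :=
  ∃ (Ω : Type) (_ : MeasurableSpace Ω) (P : Measure Ω) (_ : IsProbabilityMeasure P)
    (γ : Ω → ℝ → ℂ), Final.IsSLE (Final.kappa q) P γ ∧
    ∀ Φ : (ℝ × ℝ) ≃ₜ (ℝ × ℝ), (∃ ψ, Final.IsUniformizer Φ ψ) ∧ ∀ ψ, Final.IsUniformizer Φ ψ →
      ∃ G : Ω → C(unitInterval, ℂ),
        (∀ᵐ ω ∂P, G ω 0 = Final.toC (Φ (Final.circ 0)) ∧
          G ω 1 = Final.toC (Φ (Final.circ Real.pi)) ∧
          ∀ t : unitInterval, (t : ℝ) < 1 → G ω t = ψ (γ ω (t / (1 - t)))) ∧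
        (∀ F, Final.BoundedContinuous F → AEMeasurable (fun ω => F (G ω)) P) ∧
        (∀ (δ : ℕ → ℝ) (N k : ℕ → ℕ) (p : ∀ n, ZMod (N n) → ℤ × ℤ)
          (S : ℕ → Finset (ℤ × ℤ)), Final.Approx Φ δ N k p S →
          (∀ n, ∀ A ⊆ Final.edges (S n), ∃ η, Final.IsInterface (p n) (k n) (δ n) A η) ∧
          (K Φ δ N k p S → Final.Converges q P G δ N k p S)) ∧
        ∃ Φ' : (ℝ × ℝ) ≃ₜ (ℝ × ℝ), Final.dom Φ' = Final.dom Φ ∧
          Φ' (Final.circ 0) = Φ (Final.circ 0) ∧ Φ' (Final.circ Real.pi) = Φ (Final.circ Real.pi) ∧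
          ∀ δ : ℕ → ℝ, (∀ n, 0 < δ n) → Tendsto δ atTop (𝓝 0) →
            ∃ (N k : ℕ → ℕ) (p : ∀ n, ZMod (N n) → ℤ × ℤ) (S : ℕ → Finset (ℤ × ℤ)),
              Final.Approx Φ' δ N k p S ∧ Final.Converges q P G δ N k p S

/-- The diagonal approximation. -/
theorem exists_approx {K : Cls} {q : ℝ} (hq : 0 < q) (hpoly : S_poly K) (hstab : S_stab)
    {Ω : Type} [MeasurableSpace Ω] {P : Measure Ω} [IsProbabilityMeasure P] {γ : Ω → ℝ → ℂ}
    {κ : ℝ} (hCL : CL K κ (wq q) P γ) {Φ : (ℝ × ℝ) ≃ₜ (ℝ × ℝ)} {ψ : ℂ → ℂ}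
    (hψ : IsUniformizer Φ ψ) {G : Ω → C(unitInterval, ℂ)} (hG : IsG Φ ψ P γ G) {δ : ℕ → ℝ}
    (hδ : ∀ n, 0 < δ n) (hδ0 : Tendsto δ atTop (𝓝 0)) (hH : HasApx Φ) :
    ∃ (N k : ℕ → ℕ) (p : ∀ n, ZMod (N n) → ℤ × ℤ) (S : ℕ → Finset (ℤ × ℤ)),
      Approx Φ δ N k p S ∧
      Tendsto (fun n => pI hq (δ n) (p n) (k n) (S n)) atTop (𝓝 (pG (aemeasurable_of hG.2))) := by
  -- the domains
  have h1 : ∀ m : ℕ, ∃ Φ' : (ℝ × ℝ) ≃ₜ (ℝ × ℝ),
      (∀ t, dist (toC (Φ' (circ t))) (toC (Φ (circ t))) < 1 / ((m : ℝ) + 1)) ∧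
      ∃ (N k : ℕ → ℕ) (p : ∀ n, ZMod (N n) → ℤ × ℤ) (S : ℕ → Finset (ℤ × ℤ)),
        Approx Φ' δ N k p S ∧ K Φ' δ N k p S := by
    intro m
    obtain ⟨Φ', h2, h3⟩ := hpoly Φ hH (1 / ((m : ℝ) + 1)) (by positivity)
    exact ⟨Φ', h2, h3 δ hδ hδ0⟩
  choose Φm hΦm Nm km pm Sm hAm hKm using h1
  have hΦ : ∀ ε > 0, ∀ᶠ m in atTop, ∀ t, dist (toC (Φm m (circ t))) (toC (Φ (circ t))) < ε := by
    intro ε hε
    have h2 := (tendsto_one_div_add_atTop_nhds_zero_nat (𝕜 := ℝ)).eventually (gt_mem_nhds hε)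
    exact h2.mono fun m hm t => (hΦm m t).trans hm
  obtain ⟨ψm, hψm, hunif⟩ := hstab Φ ψ hψ Φm hΦ
  -- the curves
  have h4 : ∀ m, ∃ G' : Ω → C(unitInterval, ℂ), IsG (Φm m) (ψm m) P γ G' ∧
      ConvTo (wq q) P G' δ (Nm m) (km m) (pm m) (Sm m) := by
    intro m
    obtain ⟨G', hG', h5⟩ := (hCL.2 (Φm m)).2 (ψm m) (hψm m)
    exact ⟨G', hG', (h5 δ (Nm m) (km m) (pm m) (Sm m) (hAm m)).2 (hKm m)⟩
  choose Gm hGm hCm using h4
  have h5 := tendsto_pG (aemeasurable_of hG.2) (fun m => aemeasurable_of (hGm m).2)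
    (tendsto_curves hCL.1 hG hGm hΦ hunif)
  have h6 : ∀ m, Tendsto (fun n => pI hq (δ n) (pm m n) (km m n) (Sm m n)) atTop
      (𝓝 (pG (aemeasurable_of (hGm m).2))) :=
    fun m => tendsto_pI hq (aemeasurable_of (hGm m).2) (hAm m).1 (hCm m)
  -- the diagonal
  let _ : PseudoMetricSpace (ProbabilityMeasure Cv) :=
    TopologicalSpace.pseudoMetrizableSpacePseudoMetric (ProbabilityMeasure Cv)
  have h7 : ∀ m : ℕ, ∀ᶠ n in atTop,
      dist (pI hq (δ n) (pm m n) (km m n) (Sm m n)) (pG (aemeasurable_of (hGm m).2)) <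
        1 / ((m : ℝ) + 1) ∧
      ∃ s : ℕ → ℝ, Monotone s ∧ s 0 = 0 ∧ s (km m n) = Real.pi ∧ s (Nm m n) = 2 * Real.pi ∧
        ∀ i < Nm m n, ∀ t ∈ Icc (s i) (s (i + 1)),
          dist ((δ n : ℂ) * pt (pm m n i)) (toC (Φm m (circ t))) < 1 / ((m : ℝ) + 1) := by
    intro m
    have hpos : (0 : ℝ) < 1 / ((m : ℝ) + 1) := by positivity
    exact ((Metric.tendsto_nhds.1 (h6 m)) _ hpos).and ((hAm m).2.2 _ hpos)
  obtain ⟨f, hf, h8⟩ := exists_diag h7
  refine ⟨fun n => Nm (f n) n, fun n => km (f n) n, fun n => pm (f n) n, fun n => Sm (f n) n,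
    ⟨fun n => (hAm (f n)).1 n, hδ0, ?_⟩, ?_⟩
  · intro ε hε
    have h9 := ((tendsto_one_div_add_atTop_nhds_zero_nat (𝕜 := ℝ)).comp hf).eventually
      (gt_mem_nhds (half_pos hε))
    filter_upwards [h8, h9] with n hn1 hn2
    obtain ⟨s, hs1, hs2, hs3, hs4, hs5⟩ := hn1.2
    refine ⟨s, hs1, hs2, hs3, hs4, fun i hi t ht => ?_⟩
    have h10 := hs5 i hi t ht
    have h11 := hΦm (f n) t
    simp only [Function.comp_apply] at hn2
    refine lt_of_le_of_lt (dist_triangle _ (toC (Φm (f n) (circ t))) _) ?_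
    linarith
  · rw [Metric.tendsto_nhds]
    intro ε hε
    have h9 := ((tendsto_one_div_add_atTop_nhds_zero_nat (𝕜 := ℝ)).comp hf).eventually
      (gt_mem_nhds (half_pos hε))
    have h10 := hf.eventually ((Metric.tendsto_nhds.1 h5) _ (half_pos hε))
    filter_upwards [h8, h9, h10] with n hn1 hn2 hn3
    simp only [Function.comp_apply] at hn2
    refine lt_of_le_of_lt (dist_triangle _ (pG (aemeasurable_of (hGm (f n)).2)) _) ?_
    linarith [hn1.1]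

/-- **The curve theorem for the class `K` gives convergence in every marked Jordan domain for
suitable approximations** (with arbitrary meshes). -/
theorem questionE_of {K : Cls} {q : ℝ} (hq : 0 < q) (hpoly : S_poly K) (hstab : S_stab)
    (h : CurveLimitOn K (Final.kappa q) (wq q)) : QuestionE K q := by
  obtain ⟨Ω, mΩ, P, hP, γ, hCL⟩ := H199.C.curveLimitOn_iff.1 h
  obtain ⟨hγ, h⟩ := hCL
  refine ⟨Ω, mΩ, P, hP, γ, QE.isSLE_of hγ, fun Φ => ?_⟩
  obtain ⟨h1, h2⟩ := h Φ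
  refine ⟨h1, fun ψ hψ => ?_⟩
  obtain ⟨G, hG, hG3⟩ := h2 ψ hψ
  refine ⟨G, ?_, fun F hF => hG.2 F (Final.continuous_of hF), ?_, ?_⟩
  · obtain ⟨B, hB, hT⟩ := hγ
    filter_upwards [hG.1, hT, hB.eval_zero_ae_eq_zero] with ω h1 h2 h3
    refine ⟨?_, h1⟩
    have h4 : γ ω 0 = 0 := by
      rw [h2.start]
      simp [h3]
    have h5 := h1.2 0 (by simp)
    rw [h5]
    simp only [Set.Icc.coe_zero, zero_div, h4]
    exact hψ.2.2.2.2.1
  · intro δ N k p S hA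
    obtain ⟨h3, h4⟩ := hG3 δ N k p S hA
    refine ⟨h3, fun hK η hη F hF => ?_⟩
    exact h4 hK η hη F (Final.continuous_of hF) hF.1
      (fun x σ hσ hs => Final.invariant_of hF x σ hσ hs)
  · obtain ⟨Φ', -, e1, e2, e3, hH, -⟩ := H634.Apx.exap_all Φ
    have hψ' : IsUniformizer Φ' ψ := by
      obtain ⟨a1, a2, a3, a4, a5, a6⟩ := hψ
      refine ⟨a1, a2, ?_, a4, ?_, ?_⟩
      · rw [e1]; exact a3
      · rw [e2]; exact a5
      · rw [e3]; exact a6
    have hG' : IsG Φ' ψ P γ G := ⟨hG.1.mono fun ω hω => ⟨by rw [e3]; exact hω.1, hω.2⟩, hG.2⟩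
    refine ⟨Φ', e1, e2, e3, fun δ hδ hδ0 => ?_⟩
    obtain ⟨N, k, p, S, hA, hlim⟩ := exists_approx hq hpoly hstab ⟨hγ, h⟩ hψ' hG' hδ hδ0 hH
    refine ⟨N, k, p, S, hA, fun η hη F hF => ?_⟩
    obtain ⟨⟨M, hM⟩, hFc⟩ := boundedContinuous_iff.1 hF
    let f : Cv →ᵇ ℝ := BoundedContinuousFunction.ofNormedAddCommGroup (fun x : Cv => F x) hFc M hM
    have h3 := (ProbabilityMeasure.tendsto_iff_forall_integral_tendsto.1 hlim) f
    have h4 : ∫ x, f x ∂((pG (aemeasurable_of hG'.2) : ProbabilityMeasure Cv) : Measure Cv) =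
        ∫ ω, F (G ω) ∂P := integral_lawG (aemeasurable_of hG'.2) hFc
    rw [h4] at h3
    refine h3.congr fun n => ?_
    obtain ⟨a1, a2, a3, a4, a5⟩ := hA.1 n
    exact (mean_lawI hq a4 a5 a3 (c := η n) (hη n) hFc).symm

end Vale.Agent.P167.QG
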