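import Vale.Agent.P167.H653.Real.Defs
import Vale.Agent.P167.H634.Sch.Sch
import Vale.Agent.P167.QE.Ft

/-!
# P167, general `q`: approximations of polygon domains, 1 (tools)
-/

set_option autoImplicit false

open Filter Topology Set

namespace Vale.Agent.P167.QG.Apx

open Vale.Agent.P167.E6
open Vale.Agent.P167.H192 (ro)
open Vale.Agent.P167.Enl (PN PN_lin pdir_step PN_succ)
open Vale.Agent.P167.H825 (pdir)
open Vale.Agent.P153.R2.R1 (pl pl_eq)

/-! ### Periodic functions -/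

theorem per_uc {X : Type*} [PseudoMetricSpace X] {f : ℝ → X} {T : ℝ} (hT : 0 < T)
    (hc : Continuous f) (hper : ∀ t, f (t + T) = f t) {ε : ℝ} (hε : 0 < ε) :
    ∃ η > 0, ∀ x y, |x - y| ≤ η → dist (f x) (f y) ≤ ε := by
  have hu := isCompact_Icc.uniformContinuousOn_of_continuous (hc.continuousOn (s := Icc (-T) (2 * T)))
  obtain ⟨η, hη, h⟩ := Metric.uniformContinuousOn_iff.1 hu ε hε
  refine ⟨min (η / 2) T, lt_min (half_pos hη) hT, fun x y hxy => ?_⟩
  have hP : Function.Periodic f T := hper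
  obtain ⟨k, hk, -⟩ := existsUnique_add_zsmul_mem_Ico hT x 0
  rw [zsmul_eq_mul, zero_add] at hk
  have h1 : f (x + k * T) = f x := hP.int_mul k x
  have h2 : f (y + k * T) = f y := hP.int_mul k y
  have h3 := hxy.trans (min_le_left _ _)
  have h4 := abs_le.1 (hxy.trans (min_le_right _ _))
  rw [← h1, ← h2]
  refine (h _ ⟨by linarith [hk.1], by linarith [hk.2]⟩ _ ⟨by linarith [hk.1], by linarith [hk.2]⟩
    ?_).le
  rw [Real.dist_eq]
  have : x + k * T - (y + k * T) = x - y := by ring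
  rw [this]
  linarith

theorem per_bdd {f : ℝ → ℂ} {T : ℝ} (hT : 0 < T) (hc : Continuous f)
    (hper : ∀ t, f (t + T) = f t) : ∃ B : ℝ, 0 < B ∧ ∀ x, ‖f x‖ ≤ B := by
  have hP : Function.Periodic f T := hper
  obtain ⟨B, hB⟩ := isCompact_Icc.exists_bound_of_continuousOn (hc.continuousOn (s := Icc 0 T))
  refine ⟨max B 1, lt_max_of_lt_right one_pos, fun x => ?_⟩
  obtain ⟨k, hk, -⟩ := existsUnique_add_zsmul_mem_Ico hT x 0
  rw [zsmul_eq_mul, zero_add] at hk
  have h1 : f (x + k * T) = f x := hP.int_mul k x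
  rw [← h1]
  exact (hB _ ⟨hk.1, hk.2.le⟩).trans (le_max_left _ _)

/-! ### The rotation of the lattice -/

/-- The factor `(1 - i) / 2`: the site `s` of the squares is at `rt s`. -/
noncomputable def rt : ℂ := (1 - Complex.I) / 2

theorem norm_rt_le : ‖rt‖ ≤ 1 := by
  unfold rt
  rw [norm_div, Complex.norm_ofNat]
  have := norm_sub_le (1 : ℂ) Complex.I
  rw [norm_one, Complex.norm_I] at this
  linarith

theorem pt_ro (v : ℤ × ℤ) : pt v = rt * pt (ro v) := by
  unfold rt ro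
  apply Complex.ext
  · simp [pt]; ring
  · simp [pt]; ring

theorem norm_pt_le (v : ℤ × ℤ) : ‖pt v‖ ≤ |(v.1 : ℝ)| + |(v.2 : ℝ)| :=
  Complex.norm_le_abs_re_add_abs_im _

theorem pt_add (v w : ℤ × ℤ) : pt (v + w) = pt v + pt w := by
  apply Complex.ext <;> simp [pt]

theorem pt_sub (v w : ℤ × ℤ) : pt (v - w) = pt v - pt w := by
  apply Complex.ext <;> simp [pt]

theorem pt_zsmul (n : ℤ) (v : ℤ × ℤ) : pt (n • v) = (n : ℂ) * pt v := by
  apply Complex.ext <;> simp [pt]

/-! ### The enlargement and the curve of the polygon -/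

variable {m : ℕ} {q : ZMod m → ℤ × ℤ}

theorem pt_PN (hq : IsPolygon q) {N : ℕ} (hN : 0 < N) (i : ℕ) :
    pt (PN q N i) = (N : ℂ) * PF6 q 1 ((i : ℝ) / N) := by
  have hN' : (0 : ℝ) < N := by exact_mod_cast hN
  have h0 := Nat.div_add_mod' i N
  have hj := Nat.mod_lt i hN
  set a := i / N with ha
  set b := i % N with hb
  have h1 : (i : ℝ) / N = a + b / N := by
    rw [← h0]
    push_cast
    field_simp
  have hb0 : (0 : ℝ) ≤ b / N := by positivity
  have hb1 : (b : ℝ) / N ≤ 1 := by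
    rw [div_le_one hN']
    exact_mod_cast hj.le
  have h2 : PF6 q 1 ((i : ℝ) / N) = (1 - ((i : ℝ) / N - (a : ℤ))) • PV6 q 1 (a : ℤ) +
      ((i : ℝ) / N - (a : ℤ)) • PV6 q 1 ((a : ℤ) + 1) := by
    refine pl_eq (PV6 q 1) (a : ℤ) ?_ ?_
    · rw [h1]; push_cast; linarith
    · rw [h1]; push_cast; linarith
  rw [h2, ← h0, PN_lin hN hj]
  have h3 : q (((a : ℤ) + 1 : ℤ) : ZMod m) = q (a : ZMod m) + dir (pdir q a) := by
    rw [← pdir_step hq]
    push_cast
    rfl
  have h4 : (((a * N + b : ℕ) : ℝ) / N - ((a : ℤ) : ℝ)) = b / N := by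
    push_cast
    field_simp
    ring
  rw [h4]
  simp only [PV6, h3]
  rw [pt_add, pt_add, pt_zsmul, pt_zsmul]
  have hN'' : (N : ℂ) ≠ 0 := by exact_mod_cast hN.ne'
  simp only [Complex.real_smul]
  push_cast
  field_simp
  ring

end Vale.Agent.P167.QG.Apx
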