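import Vale.Agent.P167.QG.Apx1
import Vale.Agent.P167.H634.Sch.Par

/-!
# P167, general `q`: approximations of polygon domains, 2 (one polygon)
-/

set_option autoImplicit false

open Filter Topology Set

namespace Vale.Agent.P167.QG.Apx

open Vale.Agent.P167.E6
open Vale.Agent.P167.H192 (ro)
open Vale.Agent.P167.Enl (PN PN_lin pdir_step PN_succ)
open Vale.Agent.P167.H825 (pdir)
open Vale.Agent.P167.H653.Real (RealP cc)
open Vale.Agent.P153.R2.Final (dom circ toC)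

variable {m : ℕ} {q : ZMod m → ℤ × ℤ} {S₀ : Finset (ℤ × ℤ)} {N : ℕ} {v₀ : ℤ × ℤ} {t K : ℕ}
  {n : ℕ} {p : ZMod n → ℤ × ℤ} {k : ℕ} {S : Finset (ℤ × ℤ)} {f : ℕ → ℕ}

theorem pos_err (hR : RealP q S₀ N v₀ t K p k S f) (hq : IsPolygon q) (hN : 0 < N) {i : ℕ}
    (hi : i < n) {δ lam B : ℝ} (hδ : 0 < δ) (hlam : |δ * N - lam| ≤ 2 * δ)
    (hB : ∀ x, ‖PF6 q 1 x‖ ≤ B) (hv : ‖pt v₀‖ ≤ 1) :
    ‖(δ : ℂ) * pt (p i) - lam * rt * PF6 q 1 (((f i + t : ℕ) : ℝ) / N)‖ ≤ (5 + 2 * B) * δ := by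
  obtain ⟨h1, h2⟩ := hR.near i hi
  have h3 : ‖pt (ro (p i)) - pt (cc q N t v₀ (f i))‖ ≤ 4 := by
    rw [← pt_sub]
    refine (norm_pt_le _).trans ?_
    simp only [Prod.fst_sub, Prod.snd_sub]
    have h1' : |(((ro (p i)).1 - (cc q N t v₀ (f i)).1 : ℤ) : ℝ)| ≤ 2 := by exact_mod_cast h1
    have h2' : |(((ro (p i)).2 - (cc q N t v₀ (f i)).2 : ℤ) : ℝ)| ≤ 2 := by exact_mod_cast h2
    linarith
  have h4 : pt (cc q N t v₀ (f i)) = (N : ℂ) * PF6 q 1 (((f i + t : ℕ) : ℝ) / N) + pt v₀ := by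
    rw [cc, pt_add, pt_PN hq hN]
  set w := PF6 q 1 (((f i + t : ℕ) : ℝ) / N) with hw
  have h5 : (δ : ℂ) * pt (p i) - lam * rt * w =
      rt * ((δ : ℂ) * (pt (ro (p i)) - pt (cc q N t v₀ (f i))) + ((δ * N - lam : ℝ) : ℂ) * w +
        (δ : ℂ) * pt v₀) := by
    rw [pt_ro (p i), h4]
    push_cast
    ring
  rw [h5, norm_mul]
  have hB' := hB (((f i + t : ℕ) : ℝ) / N)
  rw [← hw] at hB'
  have h6 : ‖(δ : ℂ) * (pt (ro (p i)) - pt (cc q N t v₀ (f i)))‖ ≤ δ * 4 := by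
    rw [norm_mul, Complex.norm_real, Real.norm_eq_abs, abs_of_pos hδ]
    gcongr
  have h7 : ‖((δ * N - lam : ℝ) : ℂ) * w‖ ≤ 2 * δ * B := by
    rw [norm_mul, Complex.norm_real, Real.norm_eq_abs]
    gcongr
  have h8 : ‖(δ : ℂ) * pt v₀‖ ≤ δ * 1 := by
    rw [norm_mul, Complex.norm_real, Real.norm_eq_abs, abs_of_pos hδ]
    gcongr
  have h9 : ‖(δ : ℂ) * (pt (ro (p i)) - pt (cc q N t v₀ (f i))) + ((δ * N - lam : ℝ) : ℂ) * w +
        (δ : ℂ) * pt v₀‖ ≤ (5 + 2 * B) * δ := by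
    refine (norm_add_le _ _).trans ?_
    have := norm_add_le ((δ : ℂ) * (pt (ro (p i)) - pt (cc q N t v₀ (f i))))
      (((δ * N - lam : ℝ) : ℂ) * w)
    linarith
  have h10 := norm_nonneg ((δ : ℂ) * (pt (ro (p i)) - pt (cc q N t v₀ (f i))) +
    ((δ * N - lam : ℝ) : ℂ) * w + (δ : ℂ) * pt v₀)
  calc ‖rt‖ * _ ≤ 1 * _ := mul_le_mul_of_nonneg_right norm_rt_le h10
    _ ≤ _ := by rw [one_mul]; exact h9

/-- The parameters for one polygon. -/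
theorem exists_par (hR : RealP q S₀ N v₀ t K p k S f) (hq : IsPolygon q) (hN : 0 < N)
    {σ β : ℝ → ℝ} (hσβ : ∀ x, σ (β x) = x) (hβ : Monotone β) (hσ : Monotone σ) {c : ℝ → ℂ}
    {δ lam B η e : ℝ} (hδ : 0 < δ) (hlam0 : 0 < lam) (hlam : |δ * N - lam| ≤ 2 * δ)
    (hB : ∀ x, ‖PF6 q 1 x‖ ≤ B) (hv : ‖pt v₀‖ ≤ 1)
    (hc : ∀ x, c x = lam * rt * PF6 q 1 (σ x)) (hη : 0 ≤ η)
    (h0 : |β ((t : ℝ) / N) - 0| ≤ η) (h1 : |β (((K + t : ℕ) : ℝ) / N) - Real.pi| ≤ η)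
    (h2 : |β (m + (t : ℝ) / N) - 2 * Real.pi| ≤ η)
    (hu : ∀ x y : ℝ, |x - y| ≤ 4 / (N : ℝ) → dist (PF6 q 1 x) (PF6 q 1 y) ≤ e)
    (hω : ∀ u t, |u - t| ≤ η → dist (c u) (c t) ≤ e) :
    ∃ s' : ℕ → ℝ, Monotone s' ∧ s' 0 = 0 ∧ s' k = Real.pi ∧ s' n = 2 * Real.pi ∧
      ∀ i < n, ∀ x ∈ Icc (s' i) (s' (i + 1)),
        dist ((δ : ℂ) * pt (p i)) (c x) < (6 + 2 * B) * δ + lam * e + e := by
  have hN' : (0 : ℝ) < N := by exact_mod_cast hN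
  have hm : Monotone fun i : ℕ => β (((f i + t : ℕ) : ℝ) / N) := by
    intro i j hij
    refine hβ ?_
    have := hR.mono hij
    gcongr
  have hpi := Real.pi_pos
  refine H634.Sch.exists_fix (s := fun i => β (((f i + t : ℕ) : ℝ) / N)) hη hm hR.k_pos hR.k_lt
    hpi.le (by linarith) ?_ ?_ ?_ ?_ hω
  · simpa [hR.f_zero] using h0
  · simp only [hR.f_k]
    exact h1
  · simp only [hR.f_n]
    have e1 : ((m * N + t : ℕ) : ℝ) / N = m + (t : ℝ) / N := by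
      push_cast
      field_simp
    rw [e1]
    exact h2
  · intro i hi x hx
    have e1 := pos_err hR hq hN hi hδ hlam hB hv
    have e2 : (((f i + t : ℕ) : ℝ) / N) ≤ σ x := by
      have := hσ hx.1
      rwa [hσβ] at this
    have e3 : σ x ≤ ((f (i + 1) + t : ℕ) : ℝ) / N := by
      have := hσ hx.2
      rwa [hσβ] at this
    have e4 : ((f (i + 1) + t : ℕ) : ℝ) / N ≤ ((f i + t : ℕ) : ℝ) / N + 4 / N := by
      rw [← add_div]
      gcongr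
      have := hR.f_step i
      exact_mod_cast (by omega : f (i + 1) + t ≤ f i + t + 4)
    have e5 := hu (((f i + t : ℕ) : ℝ) / N) (σ x) (by rw [abs_le]; constructor <;> linarith)
    have e6 : dist ((lam : ℂ) * rt * PF6 q 1 (((f i + t : ℕ) : ℝ) / N)) (c x) ≤ lam * e := by
      rw [hc, dist_eq_norm, ← mul_sub, norm_mul, norm_mul, Complex.norm_real, Real.norm_eq_abs,
        abs_of_pos hlam0]
      rw [dist_eq_norm] at e5
      have h3 := norm_rt_le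
      have h4 := norm_nonneg rt
      have h5 := norm_nonneg (PF6 q 1 (((f i + t : ℕ) : ℝ) / N) - PF6 q 1 (σ x))
      calc lam * ‖rt‖ * ‖PF6 q 1 (((f i + t : ℕ) : ℝ) / N) - PF6 q 1 (σ x)‖
          ≤ lam * 1 * e := by gcongr
        _ = lam * e := by ring
    rw [← dist_eq_norm] at e1
    have := dist_triangle ((δ : ℂ) * pt (p i)) ((lam : ℂ) * rt * PF6 q 1 (((f i + t : ℕ) : ℝ) / N))
      (c x)
    linarith

end Vale.Agent.P167.QG.Apx
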