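import Vale.Agent.P167.QG.Apx2
import Vale.Agent.P167.H653.Real.Main

/-!
# P167, general `q`: approximations of polygon domains, 3 (the sequence)
-/

set_option autoImplicit false

open Filter Topology Set

namespace Vale.Agent.P167.QG.Apx

open Vale.Agent.P167.E6
open Vale.Agent.P167.Enl (PN PN_lin pdir_step PN_succ)
open Vale.Agent.P167.H825 (pdir)
open Vale.Agent.P167.H653.Real (RealP cc)
open Vale.Agent.P153.R2.Final (dom circ toC)

/-! ### The numbers -/

/-- The size of the enlargement. -/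
noncomputable def Nn (lam δ : ℝ) : ℕ := 2 * ⌊lam / (2 * δ)⌋₊

/-- The position of the starting point. -/
noncomputable def tn (a lam δ : ℝ) : ℕ := 2 * ⌊a * Nn lam δ / 2⌋₊ + 1

/-- An even number near `a N`. -/
noncomputable def Kn (a lam δ : ℝ) : ℕ := 2 * ⌊a * Nn lam δ / 2⌋₊

variable {a lam δ : ℝ}

theorem Nn_bd (hlam : 0 < lam) (hδ : 0 < δ) :
    lam - 2 * δ ≤ δ * Nn lam δ ∧ δ * Nn lam δ ≤ lam := by
  have h1 : 0 ≤ lam / (2 * δ) := by positivity
  have h2 := Nat.floor_le h1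
  have h3 := Nat.lt_floor_add_one (lam / (2 * δ))
  rw [le_div_iff₀ (by positivity)] at h2
  rw [div_lt_iff₀ (by positivity)] at h3
  unfold Nn
  push_cast
  constructor <;> nlinarith

theorem Kn_bd (ha : 0 ≤ a) : a * Nn lam δ - 2 ≤ Kn a lam δ ∧ (Kn a lam δ : ℝ) ≤ a * Nn lam δ := by
  have h1 : 0 ≤ a * Nn lam δ / 2 := by positivity
  have h2 := Nat.floor_le h1
  have h3 := Nat.lt_floor_add_one (a * Nn lam δ / 2)
  unfold Kn
  push_cast
  constructor <;> linarith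

theorem tn_bd (ha : 0 ≤ a) : a * Nn lam δ - 1 ≤ tn a lam δ ∧
    (tn a lam δ : ℝ) ≤ a * Nn lam δ + 1 := by
  obtain ⟨h1, h2⟩ := Kn_bd (a := a) (lam := lam) (δ := δ) ha
  have h3 : (tn a lam δ : ℝ) = Kn a lam δ + 1 := by
    unfold tn Kn
    push_cast
    ring
  rw [h3]
  constructor <;> linarith

theorem even_Nn : Even (Nn lam δ) := ⟨_, two_mul _⟩

theorem even_Kn : Even (Kn a lam δ) := ⟨_, two_mul _⟩

theorem odd_tn : Odd (tn a lam δ) := ⟨_, rfl⟩

theorem tendsto_Nn (hlam : 0 < lam) {δ : ℕ → ℝ} (hδ : ∀ n, 0 < δ n)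
    (h0 : Tendsto δ atTop (𝓝 0)) : Tendsto (fun n => (Nn lam (δ n) : ℝ)) atTop atTop := by
  have h1 : Tendsto δ atTop (𝓝[>] 0) :=
    tendsto_nhdsWithin_iff.2 ⟨h0, Eventually.of_forall hδ⟩
  have h2 : Tendsto (fun n => lam * (δ n)⁻¹ - 2) atTop atTop :=
    tendsto_atTop_add_const_right _ _ ((tendsto_inv_nhdsGT_zero.comp h1).const_mul_atTop hlam)
  refine tendsto_atTop_mono (fun n => ?_) h2
  have h3 := (Nn_bd hlam (hδ n)).1
  have h4 := hδ n
  have h5 : lam * (δ n)⁻¹ - 2 = (lam - 2 * δ n) / δ n := by field_simp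
  rw [h5, div_le_iff₀ h4]
  linarith

/-- A sequence which is within a constant of `a N`. -/
theorem tendsto_div (hlam : 0 < lam) {δ : ℕ → ℝ} (hδ : ∀ n, 0 < δ n)
    (h0 : Tendsto δ atTop (𝓝 0)) {x : ℕ → ℝ} {C : ℝ}
    (hx : ∀ n, |x n - a * Nn lam (δ n)| ≤ C) :
    Tendsto (fun n => x n / Nn lam (δ n)) atTop (𝓝 a) := by
  have h1 := tendsto_Nn hlam hδ h0
  have h2 : Tendsto (fun n => C / (Nn lam (δ n) : ℝ)) atTop (𝓝 0) := h1.const_div_atTop C
  rw [tendsto_iff_dist_tendsto_zero]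
  refine squeeze_zero' (Eventually.of_forall fun n => dist_nonneg) ?_ h2
  filter_upwards [h1.eventually_gt_atTop 0] with n hn
  rw [Real.dist_eq]
  have h3 : x n / Nn lam (δ n) - a = (x n - a * Nn lam (δ n)) / Nn lam (δ n) := by
    field_simp
  rw [h3, abs_div, abs_of_pos hn]
  gcongr
  exact hx n

/-! ### Parity -/

theorem parity_PN {m : ℕ} {q : ZMod m → ℤ × ℤ} {N : ℕ} (hN : Even N) (t : ℕ) :
    Even ((PN q N t).1 + (PN q N t).2) ↔ Even t := by
  obtain ⟨M, hM⟩ := hN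
  have h0 : N * (t / N) + t % N = t := Nat.div_add_mod t N
  have h1 : Even t ↔ Even (t % N) := by
    conv_lhs => rw [← h0]
    rw [Nat.even_add]
    have : Even (N * (t / N)) := by rw [hM]; exact (Even.add_self M).mul_right _
    simp [this]
  rw [h1]
  unfold PN
  generalize t % N = b
  have h2 : ∀ r : Fin 4, (dir r).1 + (dir r).2 = 1 ∨ (dir r).1 + (dir r).2 = -1 := by decide
  set a := q ((t / N : ℕ) : ZMod m)
  set r := pdir q (t / N)
  have h3 : ((N : ℤ) • a + (b : ℤ) • dir r).1 + ((N : ℤ) • a + (b : ℤ) • dir r).2 =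
      (N : ℤ) * (a.1 + a.2) + b * ((dir r).1 + (dir r).2) := by
    simp only [Prod.fst_add, Prod.snd_add, Prod.smul_fst, Prod.smul_snd, smul_eq_mul]
    ring
  rw [h3, Int.even_add]
  have h4 : Even ((N : ℤ) * (a.1 + a.2)) := by
    rw [hM]
    push_cast
    exact (Even.add_self (M : ℤ)).mul_right _
  rcases h2 r with h | h <;> rw [h] <;> simp [h4]

end Vale.Agent.P167.QG.Apx
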