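import Vale.Agent.P167.QG.Apx3

/-!
# P167, general `q`: approximations of polygon domains, 4

`approx_stair`: the domain of a polygon of the lattice of the squares (rotated and scaled) has, for
all meshes, approximations which are straight near the target, if the target is inside of a side.
-/

set_option autoImplicit false

open Filter Topology Set

namespace Vale.Agent.P167.QG.Apx

open Vale.Agent.P167.E6
open Vale.Agent.P167.Enl (PN PN_lin pdir_step PN_succ)
open Vale.Agent.P167.H825 (pdir)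
open Vale.Agent.P167.H653.Real (RealP cc)
open Vale.Agent.P153.R2.Final (dom circ toC)

variable {m : ℕ} {q : ZMod m → ℤ × ℤ} {S₀ : Finset (ℤ × ℤ)}

/-- The sites on the side `j`. -/
theorem cc_flat (hq : IsPolygon q) {N : ℕ} (hN : 0 < N) {t i j : ℕ} {r : Fin 4}
    (hj : q ((j : ZMod m) + 1) = q j + dir r) (v₀ : ℤ × ℤ) (h1 : j * N ≤ i + t)
    (h2 : i + t < (j + 1) * N) : cc q N t v₀ (i + 1) = cc q N t v₀ i + dir r := by
  have h3 : (i + t) / N = j := Nat.div_eq_of_lt_le h1 h2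
  have h4 : pdir q j = r := by
    rw [pdir_step hq] at hj
    exact Enl.dir_inj (add_left_cancel hj)
  have h5 := PN_succ hN hq (i + t)
  rw [h3, h4] at h5
  rw [cc, cc, show i + 1 + t = i + t + 1 by ring, h5]
  abel

/-- The realizations exist. -/
theorem exists_real (hq : IsPolygon q) (hE : Encloses q S₀) (a : ℝ) {d lam : ℝ} (hd : 0 < d)
    (hdm : d < m) (hlam : 0 < lam) {δ : ℕ → ℝ} (hδ : ∀ n, 0 < δ n)
    (h0 : Tendsto δ atTop (𝓝 0)) : ∀ᶠ n in atTop,
      ∃ (n' : ℕ) (p : ZMod n' → ℤ × ℤ) (k : ℕ) (S : Finset (ℤ × ℤ)) (f : ℕ → ℕ),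
        RealP q S₀ (Nn lam (δ n)) (1, 0) (tn a lam (δ n)) (Kn d lam (δ n)) p k S f := by
  have h1 := tendsto_Nn hlam hδ h0
  filter_upwards [h1.eventually_ge_atTop 4, h1.eventually_ge_atTop (6 / d)] with n hn1 hn2
  have h2 := Kn_bd (a := d) (lam := lam) (δ := δ n) hd.le
  refine H653.Real.real hq hE (by exact_mod_cast hn1) even_Nn (by decide) ?_ even_Kn ?_ ?_
  · have h3 := parity_PN (q := q) (even_Nn (lam := lam) (δ := δ n)) (0 + tn a lam (δ n))
    have h4 : ¬ Even (0 + tn a lam (δ n)) := by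
      rw [zero_add, Nat.not_even_iff_odd]
      exact odd_tn
    rw [← h3, Int.not_even_iff_odd] at h4
    rw [cc]
    have h5 : (PN q (Nn lam (δ n)) (0 + tn a lam (δ n)) + ((1, 0) : ℤ × ℤ)).1 +
        (PN q (Nn lam (δ n)) (0 + tn a lam (δ n)) + ((1, 0) : ℤ × ℤ)).2 =
        ((PN q (Nn lam (δ n)) (0 + tn a lam (δ n))).1 +
          (PN q (Nn lam (δ n)) (0 + tn a lam (δ n))).2) + 1 := by
      simp only [Prod.fst_add, Prod.snd_add]
      ring
    rw [h5]
    exact h4.add_one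
  · have h3 : (6 : ℝ) ≤ d * Nn lam (δ n) := by
      rw [div_le_iff₀ hd] at hn2
      linarith
    have h4 : (4 : ℝ) ≤ Kn d lam (δ n) := by linarith [h2.1]
    exact_mod_cast h4
  · have h3 : (Kn d lam (δ n) : ℝ) ≤ ((m * Nn lam (δ n) : ℕ) : ℝ) := by
      push_cast
      refine h2.2.trans ?_
      gcongr
    exact_mod_cast h3

/-- The parameters exist eventually. -/
theorem exists_par_ev (hq : IsPolygon q) {σ : ℝ → ℝ} (hc : Continuous σ) (hm : StrictMono σ)
    (hσ : ∀ t, σ (t + 2 * Real.pi) = σ t + m) (ha : 0 ≤ σ 0) {lam : ℝ} (hlam : 0 < lam)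
    {c : ℝ → ℂ} (hcc : ∀ t, c t = (lam : ℂ) * rt * PF6 q 1 (σ t)) {δ : ℕ → ℝ}
    (hδ : ∀ n, 0 < δ n) (h0 : Tendsto δ atTop (𝓝 0)) {ε : ℝ} (hε : 0 < ε) : ∀ᶠ n in atTop,
      ∀ (n' : ℕ) (p : ZMod n' → ℤ × ℤ) (k : ℕ) (S : Finset (ℤ × ℤ)) (f : ℕ → ℕ),
        RealP q S₀ (Nn lam (δ n)) (1, 0) (tn (σ 0) lam (δ n)) (Kn (σ Real.pi - σ 0) lam (δ n))
          p k S f →
        ∃ s' : ℕ → ℝ, Monotone s' ∧ s' 0 = 0 ∧ s' k = Real.pi ∧ s' n' = 2 * Real.pi ∧
          ∀ i < n', ∀ x ∈ Icc (s' i) (s' (i + 1)), dist ((δ n : ℂ) * pt (p i)) (c x) < ε := by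
  have hpi := Real.pi_pos
  have hm0 : (0 : ℝ) < m := by
    have := hq.1
    exact_mod_cast (by omega : 0 < m)
  have hsurj := H634.Sch.surjective_of_step hc hm0 hσ
  set e := hm.orderIsoOfSurjective σ hsurj with he
  have hσe : ∀ x, σ (e.symm x) = x := fun x => e.apply_symm_apply x
  have heσ : ∀ x, e.symm (σ x) = x := fun x => e.symm_apply_apply x
  have hec : Continuous e.symm := e.symm.continuous
  have hem : ∀ x, e.symm (m + x) = 2 * Real.pi + e.symm x := by
    intro x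
    apply hm.injective
    rw [hσe, add_comm (2 * Real.pi), hσ, hσe, add_comm]
  have hper : ∀ t, PF6 q 1 (t + m) = PF6 q 1 t := PF6_per
  have hcont : Continuous (PF6 q 1) := continuous_PF6
  obtain ⟨B, hB0, hB⟩ := per_bdd hm0 hcont hper
  have hcc' : c = fun t => (lam : ℂ) * rt * PF6 q 1 (σ t) := funext hcc
  have hccont : Continuous c := by
    rw [hcc']
    exact continuous_const.mul (hcont.comp hc)
  have hcper : ∀ t, c (t + 2 * Real.pi) = c t := by
    intro t
    rw [hcc, hcc, hσ, hper]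
  set e1 : ℝ := ε / (2 * (lam + 2)) with he1
  have he10 : 0 < e1 := by positivity
  obtain ⟨η, hη, hη'⟩ := per_uc (T := 2 * Real.pi) (by positivity) hccont hcper he10
  obtain ⟨η2, hη2, hη2'⟩ := per_uc hm0 hcont hper he10
  have hN := tendsto_Nn hlam hδ h0
  -- limits of the marks
  have t1 : Tendsto (fun n => (tn (σ 0) lam (δ n) : ℝ) / Nn lam (δ n)) atTop (𝓝 (σ 0)) := by
    refine tendsto_div (C := 1) hlam hδ h0 fun n => ?_
    have := tn_bd (lam := lam) (δ := δ n) ha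
    rw [abs_le]
    constructor <;> linarith
  have hd : 0 ≤ σ Real.pi - σ 0 := sub_nonneg.2 (hm.monotone hpi.le)
  have t2 : Tendsto (fun n => ((Kn (σ Real.pi - σ 0) lam (δ n) + tn (σ 0) lam (δ n) : ℕ) : ℝ) /
      Nn lam (δ n)) atTop (𝓝 (σ Real.pi)) := by
    refine tendsto_div (C := 3) hlam hδ h0 fun n => ?_
    have h1 := tn_bd (lam := lam) (δ := δ n) ha
    have h2 := Kn_bd (lam := lam) (δ := δ n) hd
    push_cast
    rw [abs_le]
    constructor <;> linarith
  have u1 : Tendsto (fun n => e.symm ((tn (σ 0) lam (δ n) : ℝ) / Nn lam (δ n))) atTop (𝓝 0) := by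
    have := (hec.tendsto (σ 0)).comp t1
    rwa [heσ] at this
  have u2 : Tendsto (fun n => e.symm (((Kn (σ Real.pi - σ 0) lam (δ n) +
      tn (σ 0) lam (δ n) : ℕ) : ℝ) / Nn lam (δ n))) atTop (𝓝 Real.pi) := by
    have := (hec.tendsto (σ Real.pi)).comp t2
    rwa [heσ] at this
  have u3 : Tendsto (fun n => (6 + 2 * B) * δ n) atTop (𝓝 0) := by
    have := h0.const_mul (6 + 2 * B)
    rwa [mul_zero] at this
  filter_upwards [(Metric.tendsto_nhds.1 u1) η hη, (Metric.tendsto_nhds.1 u2) η hη,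
    (Metric.tendsto_nhds.1 u3) (ε / 2) (half_pos hε), hN.eventually_ge_atTop 4,
    hN.eventually_ge_atTop (4 / η2)] with n v1 v2 v3 v4 v5 n' p k S f hR
  rw [Real.dist_eq] at v1 v2 v3
  have hN0 : 0 < Nn lam (δ n) := by
    have : (0 : ℝ) < Nn lam (δ n) := by linarith
    exact_mod_cast this
  have hN0' : (0 : ℝ) < Nn lam (δ n) := by exact_mod_cast hN0
  have hb := Nn_bd hlam (hδ n)
  have hx := exists_par hR hq hN0 (σ := σ) (β := e.symm) (c := c) (δ := δ n) (lam := lam) (B := B)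
    (η := η) (e := e1) hσe e.symm.monotone hm.monotone (hδ n) hlam
    (by rw [abs_le]; constructor <;> linarith [hδ n]) hB (by simp [pt, Complex.norm_def, Complex.normSq])
    hcc hη.le v1.le v2.le ?_ ?_ hη'
  · obtain ⟨s', h1, h2, h3, h4, h5⟩ := hx
    refine ⟨s', h1, h2, h3, h4, fun i hi x hxx => (h5 i hi x hxx).trans_le ?_⟩
    have h6 : lam * e1 + e1 ≤ ε / 2 := by
      have : (lam + 2) * e1 = ε / 2 := by
        rw [he1]
        field_simp
      nlinarith
    have h7 := (abs_lt.1 v3).2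
    linarith
  · rw [hem]
    have : 2 * Real.pi + e.symm ((tn (σ 0) lam (δ n) : ℝ) / Nn lam (δ n)) - 2 * Real.pi =
        e.symm ((tn (σ 0) lam (δ n) : ℝ) / Nn lam (δ n)) - 0 := by ring
    rw [this]
    exact v1.le
  · intro x y hxy
    refine hη2' x y (hxy.trans ?_)
    rw [div_le_iff₀ hN0']
    rw [div_le_iff₀ hη2] at v5
    linarith

end Vale.Agent.P167.QG.Apx
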