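import Vale.Agent.P167.Top.PlaneW

/-!
# P167, general `q`, Stage II: winding numbers of loops as sums of increments of the argument
-/

namespace Vale.Agent.P167.QG

open Complex

/-- The argument with values in `(0, 2π]`. -/
noncomputable def arg0 (u : ℂ) : ℝ := arg (-u) + Real.pi

theorem im_log_div {u u' : ℂ} (hu : u ≠ 0) (hu' : u' ≠ 0) {c : ℤ}
    (h : |arg0 u' - arg0 u + 2 * Real.pi * c| < Real.pi) :
    (log (u' / u)).im = arg0 u' - arg0 u + 2 * Real.pi * c := by
  rw [log_im]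
  have h1 : ((arg (u' / u) : ℝ) : Real.Angle) =
      ((arg0 u' - arg0 u + 2 * Real.pi * c : ℝ) : Real.Angle) := by
    rw [show u' / u = (-u') / (-u) by rw [neg_div_neg_eq],
      arg_div_coe_angle (neg_ne_zero.2 hu') (neg_ne_zero.2 hu), ← Real.Angle.coe_sub,
      Real.Angle.angle_eq_iff_two_pi_dvd_sub]
    refine ⟨-c, ?_⟩
    unfold arg0
    push_cast
    ring
  have h2 := congrArg Real.Angle.toReal h1
  rw [arg_coe_angle_toReal_eq_arg, Real.Angle.toReal_coe_eq_self_iff.2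
    ⟨by linarith [(abs_lt.1 h).1], (abs_lt.1 h).2.le⟩] at h2
  exact h2

theorem arg0_up {u : ℂ} (h : 0 < u.im) : 0 < arg0 u ∧ arg0 u < Real.pi := by
  have h1 : arg (-u) < 0 := arg_neg_iff.2 (by simpa using h)
  have h2 := neg_pi_lt_arg (-u)
  unfold arg0
  constructor <;> linarith

theorem arg0_down {u : ℂ} (h : u.im < 0) : Real.pi < arg0 u ∧ arg0 u < 2 * Real.pi := by
  have h1 : 0 ≤ arg (-u) := arg_nonneg_iff.2 (by simpa using h.le)
  have h2 : arg (-u) ≠ 0 := by
    intro h0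
    rw [arg_eq_zero_iff] at h0
    have := h0.2
    simp at this
    exact h.ne this
  have h3 : arg (-u) < Real.pi := arg_lt_pi_iff.2 (Or.inr (by simpa using h.ne))
  have h4 : 0 < arg (-u) := lt_of_le_of_ne h1 (Ne.symm h2)
  unfold arg0
  constructor <;> linarith

theorem arg0_left {u : ℂ} (h : u.re < 0) : Real.pi / 2 < arg0 u ∧ arg0 u < 3 * Real.pi / 2 := by
  have h1 : |arg (-u)| < Real.pi / 2 := abs_arg_lt_pi_div_two_iff.2 (Or.inl (by simpa using h))
  rw [abs_lt] at h1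
  unfold arg0
  constructor <;> linarith [h1.1, h1.2]

theorem arg_right {u : ℂ} (h : 0 < u.re) : |arg u| < Real.pi / 2 :=
  abs_arg_lt_pi_div_two_iff.2 (Or.inl h)

theorem arg0_right_up {u : ℂ} (h : 0 < u.re) (h' : 0 < u.im) : arg0 u < Real.pi / 2 := by
  by_contra hc
  push Not at hc
  have h1 := arg0_up h'
  have h2 : |arg (-u)| ≤ Real.pi / 2 := by
    unfold arg0 at hc h1
    rw [abs_le]
    constructor <;> linarith [h1.1, h1.2]
  rw [abs_arg_le_pi_div_two_iff] at h2
  simp at h2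
  linarith

theorem arg0_right_down {u : ℂ} (h : 0 < u.re) (h' : u.im < 0) : 3 * Real.pi / 2 < arg0 u := by
  by_contra hc
  push Not at hc
  have h1 := arg0_down h'
  have h2 : |arg (-u)| ≤ Real.pi / 2 := by
    unfold arg0 at hc h1
    rw [abs_le]
    constructor <;> linarith [h1.1, h1.2]
  rw [abs_arg_le_pi_div_two_iff] at h2
  simp at h2
  linarith

theorem ne_zero_of_im {u : ℂ} (h : u.im ≠ 0) : u ≠ 0 := by
  rintro rfl
  simp at h

/-- No crossing of the real axis. -/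
theorem step_same {u u' : ℂ} (h : 0 < u.im ∧ 0 < u'.im ∨ u.im < 0 ∧ u'.im < 0) :
    (log (u' / u)).im = arg0 u' - arg0 u := by
  have key : |arg0 u' - arg0 u + 2 * Real.pi * (0 : ℤ)| < Real.pi := by
    rw [Int.cast_zero, mul_zero, add_zero, abs_lt]
    rcases h with ⟨h1, h2⟩ | ⟨h1, h2⟩
    · have := arg0_up h1
      have := arg0_up h2
      constructor <;> linarith
    · have := arg0_down h1
      have := arg0_down h2
      constructor <;> linarith
  have := im_log_div (ne_zero_of_im (by rcases h with h | h <;> [exact h.1.ne'; exact h.1.ne]))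
    (ne_zero_of_im (by rcases h with h | h <;> [exact h.2.ne'; exact h.2.ne])) key
  simpa using this

/-- Crossing of the negative half axis. -/
theorem step_left {u u' : ℂ} (hr : u.re < 0) (hr' : u'.re < 0) :
    (log (u' / u)).im = arg0 u' - arg0 u := by
  have hu : u ≠ 0 := by rintro rfl; simp at hr
  have hu' : u' ≠ 0 := by rintro rfl; simp at hr'
  have key : |arg0 u' - arg0 u + 2 * Real.pi * (0 : ℤ)| < Real.pi := by
    rw [Int.cast_zero, mul_zero, add_zero, abs_lt]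
    have := arg0_left hr
    have := arg0_left hr'
    constructor <;> linarith
  have := im_log_div hu hu' key
  simpa using this

/-- Crossing of the positive half axis upwards. -/
theorem step_up {u u' : ℂ} (hr : 0 < u.re) (hr' : 0 < u'.re) (hi : u.im < 0) (hi' : 0 < u'.im) :
    (log (u' / u)).im = arg0 u' - arg0 u + 2 * Real.pi := by
  have key : |arg0 u' - arg0 u + 2 * Real.pi * (1 : ℤ)| < Real.pi := by
    rw [Int.cast_one, mul_one, abs_lt]
    have := arg0_up hi'
    have := arg0_right_up hr' hi'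
    have := arg0_right_down hr hi
    have := arg0_down hi
    constructor <;> linarith [Real.pi_pos]
  have := im_log_div (ne_zero_of_im hi.ne) (ne_zero_of_im hi'.ne') key
  simpa using this

/-- Crossing of the positive half axis downwards. -/
theorem step_down {u u' : ℂ} (hr : 0 < u.re) (hr' : 0 < u'.re) (hi : 0 < u.im) (hi' : u'.im < 0) :
    (log (u' / u)).im = arg0 u' - arg0 u - 2 * Real.pi := by
  have key : |arg0 u' - arg0 u + 2 * Real.pi * (-1 : ℤ)| < Real.pi := by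
    rw [Int.cast_neg, Int.cast_one, mul_neg_one, abs_lt]
    have := arg0_up hi
    have := arg0_right_up hr hi
    have := arg0_right_down hr' hi'
    have := arg0_down hi'
    constructor <;> linarith [Real.pi_pos]
  have := im_log_div (ne_zero_of_im hi.ne') (ne_zero_of_im hi'.ne) key
  simpa [sub_eq_add_neg] using this

/-! ### Squares -/

/-- The site as a complex number. -/
noncomputable def sC (s : ℤ × ℤ) : ℂ := ⟨s.1, s.2⟩

/-- The centre of the square. -/
noncomputable def ctr (v : ℤ × ℤ) : ℂ := ⟨v.1 + 1 / 2, v.2 + 1 / 2⟩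

theorem ctr_im_ne (v s : ℤ × ℤ) : (ctr v - sC s).im ≠ 0 := by
  intro h
  simp only [ctr, sC, sub_im] at h
  have h1 : (2 * v.2 + 1 : ℝ) = 2 * s.2 := by linarith
  have h2 : 2 * v.2 + 1 = 2 * s.2 := by exact_mod_cast h1
  omega

theorem ctr_ne (v s : ℤ × ℤ) : ctr v - sC s ≠ 0 := ne_zero_of_im (ctr_im_ne v s)

theorem ctr_im_pos {v s : ℤ × ℤ} : 0 < (ctr v - sC s).im ↔ s.2 ≤ v.2 := by
  simp only [ctr, sC, sub_im]
  constructor
  · intro h
    by_contra hc
    push Not at hc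
    have : (v.2 : ℝ) + 1 ≤ s.2 := by exact_mod_cast hc
    linarith
  · intro h
    have : (s.2 : ℝ) ≤ v.2 := by exact_mod_cast h
    linarith

theorem ctr_im_neg {v s : ℤ × ℤ} : (ctr v - sC s).im < 0 ↔ v.2 < s.2 := by
  constructor
  · intro h
    by_contra hc
    exact absurd (ctr_im_pos.2 (not_lt.1 hc)) (not_lt.2 h.le)
  · intro h
    rcases lt_trichotomy (ctr v - sC s).im 0 with h1 | h1 | h1
    · exact h1
    · exact absurd h1 (ctr_im_ne v s)
    · exact absurd (ctr_im_pos.1 h1) (not_le.2 h)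

theorem ctr_re_pos {v s : ℤ × ℤ} : 0 < (ctr v - sC s).re ↔ s.1 ≤ v.1 := by
  simp only [ctr, sC, sub_re]
  constructor
  · intro h
    by_contra hc
    push Not at hc
    have : (v.1 : ℝ) + 1 ≤ s.1 := by exact_mod_cast hc
    linarith
  · intro h
    have : (s.1 : ℝ) ≤ v.1 := by exact_mod_cast h
    linarith

theorem ctr_re_neg {v s : ℤ × ℤ} : (ctr v - sC s).re < 0 ↔ v.1 < s.1 := by
  simp only [ctr, sC, sub_re]
  constructor
  · intro h
    by_contra hc
    push Not at hc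
    have : (s.1 : ℝ) ≤ v.1 := by exact_mod_cast hc
    linarith
  · intro h
    have : (v.1 : ℝ) + 1 ≤ s.1 := by exact_mod_cast h
    linarith

theorem tlv_hdv (e : Ed) : (∃ v, e = Sum.inl v ∧ (hdv e).2 = (tlv e).2) ∨
    (∃ v, e = Sum.inr v ∧ (hdv e).1 = v.1 ∧ (tlv e).1 = v.1 ∧
      ((sg e = 1 ∧ (tlv e).2 = v.2 ∧ (hdv e).2 = v.2 + 1) ∨
       (sg e = -1 ∧ (tlv e).2 = v.2 + 1 ∧ (hdv e).2 = v.2))) := by
  rcases e with v | v
  · left
    refine ⟨v, rfl, ?_⟩
    by_cases h : Even (v.1 + v.2) <;> simp [hdv, tlv, h]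
  · right
    refine ⟨v, rfl, ?_⟩
    by_cases h : Even (v.1 + v.2) <;> simp [hdv, tlv, h, sg]

/-- **The increment of the argument along a medial edge.** -/
theorem step_arg (s : ℤ × ℤ) (e : Ed) :
    (log ((ctr (hdv e) - sC s) / (ctr (tlv e) - sC s))).im =
      arg0 (ctr (hdv e) - sC s) - arg0 (ctr (tlv e) - sC s) + 2 * Real.pi * (Wc s e : ℝ) := by
  rcases tlv_hdv e with ⟨v, rfl, h⟩ | ⟨v, rfl, h1, h2, h3⟩
  · have h0 : Wc s (Sum.inl v) = 0 := rfl
    rw [h0, Int.cast_zero, mul_zero, add_zero]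
    refine step_same ?_
    rcases le_or_gt s.2 (hdv (Sum.inl v)).2 with hs | hs
    · exact Or.inl ⟨ctr_im_pos.2 (h ▸ hs), ctr_im_pos.2 hs⟩
    · exact Or.inr ⟨ctr_im_neg.2 (h ▸ hs), ctr_im_neg.2 hs⟩
  · by_cases hv : v.2 + 1 = s.2
    · by_cases hx : s.1 ≤ v.1
      · have h0 : Wc s (Sum.inr v) = sg (Sum.inr v) := if_pos ⟨hv, hx⟩
        rw [h0]
        rcases h3 with ⟨h3, h4, h5⟩ | ⟨h3, h4, h5⟩
        · rw [h3, Int.cast_one, mul_one]
          exact step_up (ctr_re_pos.2 (by omega)) (ctr_re_pos.2 (by omega))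
            (ctr_im_neg.2 (by omega)) (ctr_im_pos.2 (by omega))
        · rw [h3, Int.cast_neg, Int.cast_one, mul_neg_one, ← sub_eq_add_neg]
          exact step_down (ctr_re_pos.2 (by omega)) (ctr_re_pos.2 (by omega))
            (ctr_im_pos.2 (by omega)) (ctr_im_neg.2 (by omega))
      · have h0 : Wc s (Sum.inr v) = 0 := if_neg (by tauto)
        rw [h0, Int.cast_zero, mul_zero, add_zero]
        exact step_left (ctr_re_neg.2 (by omega)) (ctr_re_neg.2 (by omega))
    · have h0 : Wc s (Sum.inr v) = 0 := if_neg (by tauto)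
      rw [h0, Int.cast_zero, mul_zero, add_zero]
      refine step_same ?_
      rcases le_or_gt s.2 (hdv (Sum.inr v)).2 with hs | hs
      · refine Or.inl ⟨ctr_im_pos.2 ?_, ctr_im_pos.2 hs⟩
        rcases h3 with ⟨h3, h4, h5⟩ | ⟨h3, h4, h5⟩ <;> omega
      · refine Or.inr ⟨ctr_im_neg.2 ?_, ctr_im_neg.2 hs⟩
        rcases h3 with ⟨h3, h4, h5⟩ | ⟨h3, h4, h5⟩ <;> omega

/-- **The winding number of a loop is the sum of the increments of the argument.** -/
theorem sum_arg {ω : Cfg} {e0 : Ed} {M : ℕ} (hM : (nx ω)^[M] e0 = e0)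
    (hinj : ∀ i < M, ∀ j < M, (nx ω)^[i] e0 = (nx ω)^[j] e0 → i = j) {ℓ : Finset Ed}
    (hℓ : ∀ e, e ∈ ℓ ↔ ∃ j < M, (nx ω)^[j] e0 = e) (s : ℤ × ℤ) :
    ∑ j ∈ Finset.range M, (log ((ctr (hdv ((nx ω)^[j + 1] e0)) - sC s) /
      (ctr (hdv ((nx ω)^[j] e0)) - sC s))).im = 2 * Real.pi * (W ℓ s : ℝ) := by
  classical
  have h1 : ∀ j, (log ((ctr (hdv ((nx ω)^[j + 1] e0)) - sC s) /
      (ctr (hdv ((nx ω)^[j] e0)) - sC s))).im =
      arg0 (ctr (hdv ((nx ω)^[j + 1] e0)) - sC s) - arg0 (ctr (hdv ((nx ω)^[j] e0)) - sC s) +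
        2 * Real.pi * (Wc s ((nx ω)^[j + 1] e0) : ℝ) := by
    intro j
    have h2 : tlv ((nx ω)^[j + 1] e0) = hdv ((nx ω)^[j] e0) := by
      rw [Function.iterate_succ_apply', tlv_nx]
    rw [← h2]
    exact step_arg s _
  rw [Finset.sum_congr rfl fun j _ => h1 j, Finset.sum_add_distrib,
    Finset.sum_range_sub (fun j => arg0 (ctr (hdv ((nx ω)^[j] e0)) - sC s)), hM]
  simp only [Function.iterate_zero, id, sub_self, zero_add]
  rw [← Finset.mul_sum, W_eq]
  congr 1
  push_cast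
  have h3 : ∑ j ∈ Finset.range M, (Wc s ((nx ω)^[j + 1] e0) : ℝ) =
      ∑ j ∈ Finset.range M, (Wc s ((nx ω)^[j] e0) : ℝ) := by
    have h4 := Finset.sum_range_succ' (fun j => (Wc s ((nx ω)^[j] e0) : ℝ)) M
    have h5 := Finset.sum_range_succ (fun j => (Wc s ((nx ω)^[j] e0) : ℝ)) M
    rw [h5] at h4
    simp only [hM, Function.iterate_zero, id] at h4
    linarith
  rw [h3]
  refine Finset.sum_bij (fun j _ => (nx ω)^[j] e0) ?_ ?_ ?_ ?_
  · intro j hj
    exact (hℓ _).2 ⟨j, Finset.mem_range.1 hj, rfl⟩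
  · intro i hi j hj h
    exact hinj i (Finset.mem_range.1 hi) j (Finset.mem_range.1 hj) h
  · intro e he
    obtain ⟨j, hj, rfl⟩ := (hℓ e).1 he
    exact ⟨j, Finset.mem_range.2 hj, rfl⟩
  · intro j _
    rfl

end Vale.Agent.P167.QG
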