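import Vale.Agent.P167.H397.Q.S2Defs
import Vale.Agent.P167.Top.Flow
import Vale.Agent.P167.H519.Outer

/-!
# P167, general `q`, Stage II: the event `L` and the winding number of the loop of the interface
-/

namespace Vale.Agent.P167.QG

open Vale.Agent.P167.FK Relation
open Vale.Agent.P145.FB (PStep)
open Vale.Agent.P167.H397.Q (blk LZ)

variable {ω : Cfg} {ℓ : Finset Ed} {w : ℤ × ℤ}

theorem PC_symm {s t : ℤ × ℤ} (h : PC ω s t) : PC ω t s := by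
  induction h with
  | refl => exact ReflTransGen.refl
  | tail _ h ih => exact ReflTransGen.head h.symm ih

theorem DC_symm {s t : ℤ × ℤ} (h : DC ω s t) : DC ω t s := by
  induction h with
  | refl => exact ReflTransGen.refl
  | tail _ h ih => exact ReflTransGen.head h.symm ih

theorem W_pc (hℓ : IsLoop ω ℓ) {s t : ℤ × ℤ} (hs : Even (s.1 + s.2)) (h : PC ω s t) :
    W ℓ s = W ℓ t := by
  have key : Even (t.1 + t.2) ∧ W ℓ s = W ℓ t := by
    induction h with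
    | refl => exact ⟨hs, rfl⟩
    | @tail a b _ hab ih =>
      refine ⟨?_, ih.2.trans (s_step ω ℓ hℓ a b (Or.inl ⟨ih.1, hab⟩))⟩
      obtain ⟨h1, h2, -⟩ := hab
      have := ih.1
      rw [Int.even_iff] at *
      omega
  exact key.2

theorem W_dc (hℓ : IsLoop ω ℓ) {s t : ℤ × ℤ} (hs : Odd (s.1 + s.2)) (h : DC ω s t) :
    W ℓ s = W ℓ t := by
  have key : Odd (t.1 + t.2) ∧ W ℓ s = W ℓ t := by
    induction h with
    | refl => exact ⟨hs, rfl⟩
    | @tail a b _ hab ih =>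
      refine ⟨?_, ih.2.trans (s_step ω ℓ hℓ a b (Or.inr ⟨ih.1, hab⟩))⟩
      obtain ⟨h1, h2, -⟩ := hab
      have := ih.1
      rw [Int.odd_iff] at *
      omega
  exact key.2

/-- The left sites of an orbit are joined by open squares. -/
theorem pc_iter (ω : Cfg) (e : Ed) (j : ℕ) : PC ω (ls e) (ls ((nx ω)^[j] e)) := by
  induction j with
  | zero => exact ReflTransGen.refl
  | succ j ih =>
    rw [Function.iterate_succ_apply']
    cases h : ω (hdv ((nx ω)^[j] e)) with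
    | true => exact ih.tail (H519.nx_open h).2
    | false => rw [(H519.nx_closed h).1]; exact ih

/-- The right sites of an orbit are joined by closed squares. -/
theorem dc_iter (ω : Cfg) (e : Ed) (j : ℕ) : DC ω (rs e) (rs ((nx ω)^[j] e)) := by
  induction j with
  | zero => exact ReflTransGen.refl
  | succ j ih =>
    rw [Function.iterate_succ_apply']
    cases h : ω (hdv ((nx ω)^[j] e)) with
    | true => rw [(H519.nx_open h).1]; exact ih
    | false => exact ih.tail (H519.nx_closed h).2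

/-- Neighbouring sites are the two sides of a medial edge. -/
theorem exists_ed {s c : ℤ × ℤ} (hs : Odd (s.1 + s.2))
    (h : (c.1 = s.1 ∧ (c.2 = s.2 + 1 ∨ s.2 = c.2 + 1)) ∨
      (c.2 = s.2 ∧ (c.1 = s.1 + 1 ∨ s.1 = c.1 + 1))) : ∃ e : Ed, ls e = c ∧ rs e = s := by
  rw [Int.odd_iff] at hs
  obtain ⟨a, b⟩ := s
  obtain ⟨x, y⟩ := c
  simp only at hs h
  rcases h with ⟨rfl, rfl | rfl⟩ | ⟨rfl, rfl | rfl⟩
  · obtain ⟨e, ⟨-, -, h3⟩ | ⟨h1, h2, -⟩⟩ := H519.edge_v x b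
    · rw [Int.even_iff] at h3; omega
    · exact ⟨e, h2, h1⟩
  · obtain ⟨e, ⟨h1, h2, -⟩ | ⟨-, -, h3⟩⟩ := H519.edge_v x y
    · exact ⟨e, h1, h2⟩
    · rw [Int.even_iff] at h3; omega
  · obtain ⟨e, ⟨-, -, h3⟩ | ⟨h1, h2, -⟩⟩ := H519.edge_h a y
    · rw [Int.even_iff] at h3; omega
    · exact ⟨e, h2, h1⟩
  · obtain ⟨e, ⟨h1, h2, -⟩ | ⟨-, -, h3⟩⟩ := H519.edge_h x y
    · exact ⟨e, h1, h2⟩
    · rw [Int.even_iff] at h3; omega

theorem W_nb (hℓ : IsLoop ω ℓ) (hl : ∀ e ∈ ℓ, PC ω w (ls e)) {s c : ℤ × ℤ}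
    (hs : Odd (s.1 + s.2))
    (h : (c.1 = s.1 ∧ (c.2 = s.2 + 1 ∨ s.2 = c.2 + 1)) ∨
      (c.2 = s.2 ∧ (c.1 = s.1 + 1 ∨ s.1 = c.1 + 1))) (hc : ¬ PC ω w c) : W ℓ c = W ℓ s := by
  obtain ⟨e, h1, h2⟩ := exists_ed hs h
  have h3 : e ∉ ℓ := fun he => hc (h1 ▸ hl e he)
  have h4 := s_jump ω ℓ hℓ e
  rw [if_neg h3, add_zero, h1, h2] at h4
  exact h4

theorem W_blk_step (hℓ : IsLoop ω ℓ) (hl : ∀ e ∈ ℓ, PC ω w (ls e)) {t t' : ℤ × ℤ}
    (ht : Odd (t.1 + t.2)) (h : PStep (blk ω w)ᶜ t t') : Odd (t'.1 + t'.2) ∧ W ℓ t = W ℓ t' := by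
  obtain ⟨h1, h2, h3⟩ := h
  have ht' : Odd (t'.1 + t'.2) := by rw [Int.odd_iff] at *; omega
  refine ⟨ht', ?_⟩
  set v : ℤ × ℤ := (min t.1 t'.1, min t.2 t'.2) with hv
  cases ho : ω v with
  | false =>
    refine s_step ω ℓ hℓ t t' (Or.inr ⟨ht, h1, h2, ?_⟩)
    show ¬ (ω v = true)
    rw [ho]
    simp
  | true =>
    have h4 : ¬ PC ω w (pa v) := fun hc => h3 ⟨ho, hc⟩
    have e1 : v.1 = min t.1 t'.1 := rfl
    have e2 : v.2 = min t.2 t'.2 := rfl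
    have key : (((pa v).1 = t.1 ∧ ((pa v).2 = t.2 + 1 ∨ t.2 = (pa v).2 + 1)) ∨
        ((pa v).2 = t.2 ∧ ((pa v).1 = t.1 + 1 ∨ t.1 = (pa v).1 + 1))) ∧
        (((pa v).1 = t'.1 ∧ ((pa v).2 = t'.2 + 1 ∨ t'.2 = (pa v).2 + 1)) ∨
        ((pa v).2 = t'.2 ∧ ((pa v).1 = t'.1 + 1 ∨ t'.1 = (pa v).1 + 1))) := by
      unfold pa
      rw [Int.odd_iff] at ht ht'
      split_ifs with hp
      · rw [Int.even_iff] at hp
        omega
      · rw [Int.even_iff] at hp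
        dsimp only
        omega
    rw [← W_nb hℓ hl ht key.1 h4, ← W_nb hℓ hl ht' key.2 h4]

theorem W_blk (hℓ : IsLoop ω ℓ) (hl : ∀ e ∈ ℓ, PC ω w (ls e)) {t t' : ℤ × ℤ}
    (ht : Odd (t.1 + t.2)) (h : ReflTransGen (PStep (blk ω w)ᶜ) t t') :
    Odd (t'.1 + t'.2) ∧ W ℓ t = W ℓ t' := by
  induction h with
  | refl => exact ⟨ht, rfl⟩
  | tail _ hab ih =>
    obtain ⟨h1, h2⟩ := W_blk_step hℓ hl ih.1 hab
    exact ⟨h1, ih.2.trans h2⟩

variable {e0 : Ed}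

/-- The loop of an edge whose right side is joined to infinity. -/
theorem W_start (hℓ : IsLoop ω ℓ) (he0 : e0 ∈ ℓ) (hinf : {t | DC ω (rs e0) t}.Infinite) :
    W ℓ (rs e0) = 0 ∧ W ℓ (ls e0) = 1 := by
  have h1 : W ℓ (rs e0) = 0 := by
    by_contra hne
    refine hinf ((W_finite hℓ).subset fun t ht => ?_)
    show W ℓ t ≠ 0
    have hodd : Odd ((rs e0).1 + (rs e0).2) := H519.rs_odd e0
    rw [← W_dc hℓ hodd ht]
    exact hne
  refine ⟨h1, ?_⟩
  rw [s_jump ω ℓ hℓ e0, h1, if_pos he0, zero_add]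

/-- **The event `L` and the winding number.** -/
theorem LZ_iff (hℓ : IsLoop ω ℓ) (he0 : e0 ∈ ℓ) (hinf : {t | DC ω (rs e0) t}.Infinite)
    (horb : ∀ e ∈ ℓ, ∃ j, (nx ω)^[j] e0 = e) {s : ℤ × ℤ} (hs : Odd (s.1 + s.2)) :
    (ω ∈ LZ (ls e0) s ∧ W ℓ s = 1) ∨ (ω ∉ LZ (ls e0) s ∧ W ℓ s = 0) := by
  have hl : ∀ e ∈ ℓ, PC ω (ls e0) (ls e) := by
    intro e he
    obtain ⟨j, rfl⟩ := horb e he
    exact pc_iter ω e0 j
  obtain ⟨hW0, hW1⟩ := W_start hℓ he0 hinf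
  by_cases hL : ω ∈ LZ (ls e0) s
  · left
    refine ⟨hL, ?_⟩
    set T : Set (ℤ × ℤ) := {t | ReflTransGen (PStep (blk ω (ls e0))ᶜ) s t} with hT
    have hfin : T.Finite := hL
    obtain ⟨t, ht, hmax⟩ := hfin.exists_maximalFor (fun t : ℤ × ℤ => t.1) T ⟨s, ReflTransGen.refl⟩
    have hodd := (W_blk hℓ hl hs ht).1
    have hWt := (W_blk hℓ hl hs ht).2
    have hblk : t ∈ blk ω (ls e0) := by
      by_contra hn
      have h1 : PStep (blk ω (ls e0))ᶜ t (t.1 + 1, t.2 + 1) := by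
        refine ⟨Or.inl rfl, Or.inl rfl, ?_⟩
        have : (min t.1 (t.1 + 1, t.2 + 1).1, min t.2 (t.1 + 1, t.2 + 1).2) = t := by
          ext <;> simp
        rw [this]
        exact hn
      have h2 : (t.1 + 1, t.2 + 1) ∈ T := ht.tail h1
      have h3 := hmax h2 (by simp)
      simp at h3
    obtain ⟨-, hpc⟩ := hblk
    have hpa : pa t = (t.1, t.2 + 1) := by
      unfold pa
      rw [if_neg]
      rw [Int.not_even_iff_odd]
      exact hodd
    obtain ⟨e, h1, h2⟩ := exists_ed (c := pa t) hodd (by rw [hpa]; simp)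
    have heven : Even ((ls e0).1 + (ls e0).2) := H519.ls_even e0
    have h3 : W ℓ (pa t) = 1 := by rw [← W_pc hℓ heven hpc, hW1]
    have h4 : e ∉ ℓ := by
      intro he
      obtain ⟨j, hj⟩ := horb e he
      have h5 : DC ω (rs e0) t := by
        rw [← h2, ← hj]
        exact dc_iter ω e0 j
      refine hinf (hfin.subset fun u hu => ?_)
      have h6 : DC ω t u := (DC_symm h5).trans hu
      have h7 : ReflTransGen (PStep (blk ω (ls e0))ᶜ) t u := by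
        refine ReflTransGen.mono (fun a b hab => ?_) _ _ h6
        refine ⟨hab.1, hab.2.1, fun hb => hab.2.2 hb.1⟩
      exact ReflTransGen.trans ht h7
    have h5 := s_jump ω ℓ hℓ e
    rw [if_neg h4, add_zero, h1, h2, h3] at h5
    rw [hWt, ← h5]
  · right
    refine ⟨hL, ?_⟩
    by_contra hne
    refine hL ((W_finite hℓ).subset fun t ht => ?_)
    show W ℓ t ≠ 0
    rw [← (W_blk hℓ hl hs ht).2]
    exact hne

end Vale.Agent.P167.QG
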