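import Vale.Agent.P167.QG.Arg1
import Vale.Agent.P167.H490.Log1
import Vale.Agent.P167.E2.Path
import Vale.Agent.P167.E2.Lin
import Vale.Agent.P167.H192.Dict2

/-!
# P167, general `q`, Stage II: logarithms along the loop of the interface
-/

namespace Vale.Agent.P167.QG

open Vale.Agent.P167.E6 Vale.Agent.P167.E2
open Vale.Agent.P167.H490 (log_sub_log re_pos_of_norm)

/-- The increment of the logarithm from `x` to `y`, seen from `z`. -/
noncomputable def Lg (z x y : ℂ) : ℂ := Complex.log ((y - z) / (x - z))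

theorem ratio_re {z x y : ℂ} (h : ‖y - x‖ < ‖x - z‖) : 0 < ((y - z) / (x - z)).re := by
  have h0 : x - z ≠ 0 := by
    intro h0
    rw [h0, norm_zero] at h
    exact absurd h (not_lt.2 (norm_nonneg _))
  refine re_pos_of_norm ?_
  have e : (y - z) / (x - z) - 1 = (y - x) / (x - z) := by
    field_simp
    ring
  rw [e, norm_div, div_lt_one (norm_pos_iff.2 h0)]
  exact h

theorem Lg_sub {z c x y : ℂ} (hx : ‖x - c‖ < ‖c - z‖) (hy : ‖y - c‖ < ‖c - z‖) :
    Lg z x y = Lg z c y - Lg z c x := by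
  unfold Lg
  rw [log_sub_log (ratio_re hy) (ratio_re hx)]
  have h0 : c - z ≠ 0 := by
    intro h0
    rw [h0, norm_zero] at hx
    exact absurd hx (not_lt.2 (norm_nonneg _))
  congr 1
  rw [div_div_div_cancel_right₀ h0]

theorem Lg_self (z x : ℂ) : Lg z x x = 0 := by
  unfold Lg
  by_cases h : x - z = 0
  · rw [h, div_zero, Complex.log_zero]
  · rw [div_self h, Complex.log_one]

/-- Change of the centre. -/
theorem Lg_shift {z z' x y : ℂ} (hx : ‖z' - z‖ < ‖x - z‖) (hy : ‖z' - z‖ < ‖y - z‖)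
    (h1 : ‖y - x‖ < ‖x - z'‖) (h2 : ‖y - x‖ < ‖x - z‖) :
    Lg z' x y - Lg z x y =
      Complex.log ((y - z') / (y - z)) - Complex.log ((x - z') / (x - z)) := by
  have g : ∀ u : ℂ, ‖z' - z‖ < ‖u - z‖ → 0 < ((u - z') / (u - z)).re ∧ u - z ≠ 0 ∧ u - z' ≠ 0 := by
    intro u hu
    have h0 : u - z ≠ 0 := by
      intro h0
      rw [h0, norm_zero] at hu
      exact absurd hu (not_lt.2 (norm_nonneg _))
    refine ⟨re_pos_of_norm ?_, h0, ?_⟩
    · have e : (u - z') / (u - z) - 1 = -((z' - z) / (u - z)) := by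
        field_simp
        ring
      rw [e, norm_neg, norm_div, div_lt_one (norm_pos_iff.2 h0)]
      exact hu
    · intro h
      have : z' - z = u - z := by linear_combination -h
      rw [this] at hu
      exact lt_irrefl _ hu
  obtain ⟨gx, x0, x0'⟩ := g x hx
  obtain ⟨gy, y0, y0'⟩ := g y hy
  unfold Lg
  rw [log_sub_log (ratio_re h1) (ratio_re h2), log_sub_log gy gx]
  congr 1
  field_simp

theorem near_chain {x : ℕ → ℂ} {c z : ℂ} {N M : ℕ} (hNM : N ≤ M)
    (h : ∀ t, N ≤ t → t ≤ M → ‖x t - c‖ < ‖c - z‖) :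
    ∑ t ∈ Finset.Ico N M, Lg z (x t) (x (t + 1)) = Lg z c (x M) - Lg z c (x N) := by
  induction M, hNM using Nat.le_induction with
  | base => simp
  | succ M hM ih =>
    rw [Finset.sum_Ico_succ_top hM, ih fun t h1 h2 => h t h1 (by omega),
      Lg_sub (h M hM (by omega)) (h (M + 1) (by omega) le_rfl)]
    ring

/-! ### Midpoints -/

theorem norm_pt_dir (r : Fin 4) : ‖pt (dir r)‖ = 1 := by
  rcases H192.dir_cases r with h | h | h | h <;> rw [h] <;> unfold pt <;>
    rw [Complex.norm_def, Complex.normSq_mk] <;> simp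

theorem pt_add (u v : ℤ × ℤ) : pt (u + v) = pt u + pt v := by
  apply Complex.ext <;> simp [pt]

theorem mid_sub (δ : ℝ) (c : Medial) :
    mid δ c - (δ : ℂ) * pt c.1 = (δ : ℂ) / 2 * pt (dir (c.2 + 1)) := by
  unfold mid
  rw [pt_add]
  ring

theorem norm_mid_sub {δ : ℝ} (hδ : 0 < δ) (c : Medial) :
    ‖mid δ c - (δ : ℂ) * pt c.1‖ = δ / 2 := by
  rw [mid_sub, norm_mul, norm_pt_dir, mul_one, norm_div, Complex.norm_real,
    Real.norm_of_nonneg hδ.le]
  simp

theorem norm_mid_sub' {δ : ℝ} (hδ : 0 < δ) (c : Medial) :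
    ‖mid δ c - (δ : ℂ) * pt (c.1 + dir (c.2 + 1))‖ = δ / 2 := by
  have : mid δ c - (δ : ℂ) * pt (c.1 + dir (c.2 + 1)) = -((δ : ℂ) / 2 * pt (dir (c.2 + 1))) := by
    unfold mid
    rw [pt_add]
    ring
  rw [this, norm_neg, norm_mul, norm_pt_dir, mul_one, norm_div, Complex.norm_real,
    Real.norm_of_nonneg hδ.le]
  simp

/-- The next vertex is an end of the edge ahead. -/
theorem norm_mid_next {δ : ℝ} (hδ : 0 < δ) (ω : Set (Sym2 (ℤ × ℤ))) (c : Medial) :
    ‖mid δ c - (δ : ℂ) * pt (next ω c).1‖ = δ / 2 := by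
  by_cases h : ahead c ∈ ω
  · rw [next_open h]
    exact norm_mid_sub' hδ c
  · rw [next_closed h]
    exact norm_mid_sub hδ c

theorem norm_next_sub {δ : ℝ} (hδ : 0 < δ) (ω : Set (Sym2 (ℤ × ℤ))) (c : Medial) :
    ‖mid δ (next ω c) - mid δ c‖ ≤ δ := by
  have h1 := norm_mid_next hδ ω c
  have h2 := norm_mid_sub hδ (next ω c)
  have e : mid δ (next ω c) - mid δ c = (mid δ (next ω c) - (δ : ℂ) * pt (next ω c).1) -
      (mid δ c - (δ : ℂ) * pt (next ω c).1) := by ring
  rw [e]
  refine (norm_sub_le _ _).trans ?_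
  rw [h1, h2]
  linarith

/-! ### The coordinates of the squares model -/

theorem ctr_me (δ : ℝ) (c : Medial) :
    (δ : ℂ) * ctr (hdv (H192.me c)) = (1 + Complex.I) * mid δ c := by
  have e : ctr (hdv (H192.me c)) = (1 + Complex.I) * (pt c.1 + pt (c.1 + dir (c.2 + 1))) / 2 := by
    rw [H192.hdv_me]
    obtain ⟨⟨a, b⟩, r⟩ := c
    unfold ahead
    rw [H192.sq_mk]
    rcases H192.dir_cases (r + 1) with h | h | h | h
    · have e1 : (min (H192.ro (a, b)).1 (H192.ro ((a, b) + (1, 0))).1,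
          min (H192.ro (a, b)).2 (H192.ro ((a, b) + (1, 0))).2) = (a - b, a + b) := by
        simp only [H192.ro, Prod.mk_add_mk]; ext <;> simp only <;> omega
      simp only [h, e1]
      apply Complex.ext <;> simp [ctr, pt] <;> ring
    · have e1 : (min (H192.ro (a, b)).1 (H192.ro ((a, b) + (0, 1))).1,
          min (H192.ro (a, b)).2 (H192.ro ((a, b) + (0, 1))).2) = (a - b - 1, a + b) := by
        simp only [H192.ro, Prod.mk_add_mk]; ext <;> simp only <;> omega
      simp only [h, e1]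
      apply Complex.ext <;> simp [ctr, pt] <;> ring
    · have e1 : (min (H192.ro (a, b)).1 (H192.ro ((a, b) + (-1, 0))).1,
          min (H192.ro (a, b)).2 (H192.ro ((a, b) + (-1, 0))).2) = (a - b - 1, a + b - 1) := by
        simp only [H192.ro, Prod.mk_add_mk]; ext <;> simp only <;> omega
      simp only [h, e1]
      apply Complex.ext <;> simp [ctr, pt] <;> ring
    · have e1 : (min (H192.ro (a, b)).1 (H192.ro ((a, b) + (0, -1))).1,
          min (H192.ro (a, b)).2 (H192.ro ((a, b) + (0, -1))).2) = (a - b, a + b - 1) := by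
        simp only [H192.ro, Prod.mk_add_mk]; ext <;> simp only <;> omega
      simp only [h, e1]
      apply Complex.ext <;> simp [ctr, pt] <;> ring
  rw [e]
  unfold mid
  ring

/-- The centre of a face. -/
noncomputable def fC (δ : ℝ) (f : ℤ × ℤ) : ℂ := (δ : ℂ) * (pt f + (1 + Complex.I) / 2)

theorem sC_rf (δ : ℝ) (f : ℤ × ℤ) :
    (δ : ℂ) * sC (H192.rf f) = (1 + Complex.I) * fC δ f := by
  have e : sC (H192.rf f) = (1 + Complex.I) * (pt f + (1 + Complex.I) / 2) := by
    apply Complex.ext <;> simp [sC, H192.rf, pt] <;> ring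
  rw [e]
  unfold fC
  ring

theorem norm_fC_sub {δ : ℝ} (hδ : 0 < δ) (f : ℤ × ℤ) : ‖fC δ f - (δ : ℂ) * pt f‖ ≤ δ := by
  have e : fC δ f - (δ : ℂ) * pt f = (δ : ℂ) * ((1 + Complex.I) / 2) := by
    unfold fC
    ring
  rw [e, norm_mul, Complex.norm_real, Real.norm_of_nonneg hδ.le]
  have h : ‖(1 + Complex.I) / 2‖ ≤ 1 := by
    rw [norm_div]
    have h1 := norm_add_le (1 : ℂ) Complex.I
    rw [norm_one, Complex.norm_I] at h1
    have h2 : ‖(2 : ℂ)‖ = 2 := by simp
    rw [h2, div_le_one (by norm_num)]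
    linarith
  exact mul_le_of_le_one_right hδ.le h

/-- The ratios are the same in both coordinates. -/
theorem ratio_eq {δ : ℝ} (hδ : 0 < δ) (c c' : Medial) (f : ℤ × ℤ) :
    (ctr (hdv (H192.me c')) - sC (H192.rf f)) / (ctr (hdv (H192.me c)) - sC (H192.rf f)) =
      (mid δ c' - fC δ f) / (mid δ c - fC δ f) := by
  have hδ' : (δ : ℂ) ≠ 0 := by exact_mod_cast hδ.ne'
  have hI : (1 + Complex.I) ≠ 0 := by
    intro h
    have := congrArg Complex.re h
    simp at this
  have key : ∀ c : Medial, ctr (hdv (H192.me c)) - sC (H192.rf f) =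
      ((1 + Complex.I) / δ) * (mid δ c - fC δ f) := by
    intro c
    have h1 := ctr_me δ c
    have h2 := sC_rf δ f
    field_simp
    linear_combination h1 - h2
  rw [key, key, mul_div_mul_left]
  exact div_ne_zero hI hδ'

end Vale.Agent.P167.QG
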