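import Vale.Agent.P167.FKA.Out
import Vale.Agent.P167.H259.FKDone

/-!
# P167, general `q`, block Q-CUTP: the probability of a decreasing local event seen from far away

`CT U T ω`: the union of the primal clusters (in `U`) of the sites of `T`; `Arm U T I`: it has a
corner of a square of `I`. `ratio_lower`: the expectation of a decreasing function of the squares of
`I` for the wired outside is at least `1 - P(Arm)` times the expectation for any outside.
`cutp`: two domains which agree in `U`.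
-/

namespace Vale.Agent.P167.QG

open Finset Filter Topology MeasureTheory Vale.Agent.P167.FK Vale.Agent.P167.FKA
open Vale.Agent.P145.FB (PStep PConn)
open Vale.Agent.P167.H166 (cl)
open Relation

/-- The union of the primal clusters of the sites of `T`. -/
def CT (U : Finset (ℤ × ℤ)) (T : Set (ℤ × ℤ)) (ω : Cfg) : Set (ℤ × ℤ) :=
  {t | ∃ s ∈ T, t ∈ cl (Op U ω) s}

/-- There is an open path of `U` from `T` to a corner of a square of `I`. -/
def Arm (U : Finset (ℤ × ℤ)) (T : Set (ℤ × ℤ)) (I : Finset (ℤ × ℤ)) : Set Cfg :=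
  {ω | ∃ v ∈ I, ∃ t ∈ CT U T ω, Cor v t}

theorem rest_anti {U : Finset (ℤ × ℤ)} {K K' : Set (ℤ × ℤ)} (h : K ⊆ K') :
    rest U K' ⊆ rest U K := by
  intro v hv
  rw [mem_rest] at hv ⊢
  exact ⟨hv.1, fun u hu => hv.2 u (h hu)⟩

theorem CT_congr {U : Finset (ℤ × ℤ)} {T : Set (ℤ × ℤ)} {ω ω' : Cfg}
    (h : ∀ v, v ∉ rest U (CT U T ω) → ω v = ω' v) : CT U T ω' = CT U T ω := by
  have key : ∀ s ∈ T, cl (Op U ω') s = cl (Op U ω) s := by
    intro s hs
    refine cl_congr fun v hv => h v fun hv' => hv ?_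
    exact rest_anti (K := cl (Op U ω) s) (K' := CT U T ω) (fun t ht => ⟨s, hs, ht⟩) hv'
  ext t
  constructor
  · rintro ⟨s, hs, ht⟩
    exact ⟨s, hs, by rw [← key s hs]; exact ht⟩
  · rintro ⟨s, hs, ht⟩
    exact ⟨s, hs, by rw [key s hs]; exact ht⟩

theorem ind_CT {U : Finset (ℤ × ℤ)} {T : Set (ℤ × ℤ)} (K : Set (ℤ × ℤ)) :
    Ind (rest U K) ({ω | CT U T ω = K}.indicator 1) := by
  intro ω ω' h
  have key : ∀ ω ω' : Cfg, (∀ v, v ∉ rest U K → ω v = ω' v) → CT U T ω = K → CT U T ω' = K := by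
    intro ω ω' h h1
    rw [CT_congr (U := U) (T := T) (ω := ω) (ω' := ω') (by rw [h1]; exact h), h1]
  by_cases h1 : CT U T ω = K
  · have h2 := key ω ω' h h1
    rw [Set.indicator_of_mem (show ω ∈ {ω | CT U T ω = K} from h1),
      Set.indicator_of_mem (show ω' ∈ {ω | CT U T ω = K} from h2)]
    rfl
  · have h2 : ¬ CT U T ω' = K := fun h2 => h1 (key ω' ω (fun v hv => (h v hv).symm) h2)
    rw [Set.indicator_of_notMem (show ω ∉ {ω | CT U T ω = K} from h1),
      Set.indicator_of_notMem (show ω' ∉ {ω | CT U T ω = K} from h2)]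

/-- The explored open squares are separated from the rest. -/
theorem sep_CT {U : Finset (ℤ × ℤ)} {T : Set (ℤ × ℤ)} {ω : Cfg}
    (hTe : ∀ s ∈ T, Even (s.1 + s.2))
    (hT : ∀ v, v ∉ U → ω v = true → ∀ a ∈ U, ∀ u : ℤ × ℤ, Even (u.1 + u.2) → Cor v u →
      Cor a u → u ∈ T) :
    Sep Set.univ (rest U (CT U T ω)) ω := by
  intro v _ hv hvo a ha u hue hc hca
  have ha' := mem_rest.1 ha
  refine ha'.2 u ?_ hca
  by_cases hvU : v ∈ U
  · rw [mem_rest] at hv
    push Not at hv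
    obtain ⟨w, ⟨s, hs, hw⟩, hcw⟩ := hv hvU
    refine ⟨s, hs, ?_⟩
    by_cases hne : w = u
    · exact hne ▸ hw
    · exact ReflTransGen.tail hw
        (step_of_cor (F := Op U ω) ⟨hvU, hvo⟩ hcw hc (cl_even (hTe s hs) hw) hue hne)
  · exact ⟨u, hT v hvU hvo a ha'.1 u hue hc hca, ReflTransGen.refl⟩

/-- In a separated domain the outside is as good as closed. -/
theorem sep_free {Q : ℝ} (hQ : 1 ≤ Q) {D : Finset (ℤ × ℤ)} {ω η : Cfg} (hω : Good ω)
    (hη : Good η) (hs : Sep Set.univ D ω) {F : Cfg → ℝ} (hF : IncF F) (hl : Loc D F) :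
    Ex Q D ω F ≤ Ex Q D η F := by
  refine H259.f_comp2 Q D ω η F hQ hω hη ?_ hF hl
  intro S hS a ha haS h
  have key : ∀ t, ReflTransGen (PStep (op (cf D ω S))) (pa a) t →
      ReflTransGen (PStep (op (cf D η S))) (pa a) t ∧ ∃ b ∈ D, Cor b t ∧ Even (t.1 + t.2) := by
    intro t ht
    induction ht with
    | refl => exact ⟨ReflTransGen.refl, a, ha, (cor_pa a).1, (cor_pa a).2⟩
    | @tail x y _ hxy ih =>
      obtain ⟨ih1, b, hb, hbx, hxe⟩ := ih
      have h5 := cor_of_step hxy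
      set v : ℤ × ℤ := (min x.1 y.1, min x.2 y.2) with hv
      have hvo : cf D ω S v = true := hxy.2.2
      have hye : Even (y.1 + y.2) := (FKA.even_step hxy).1 hxe
      have hvD : v ∈ D := by
        by_contra hvD
        rw [cf_out hvD] at hvo
        exact hs v (Set.mem_univ v) hvD hvo b hb x hxe h5.1 hbx
      refine ⟨ih1.tail ⟨hxy.1, hxy.2.1, ?_⟩, v, hvD, h5.2, hye⟩
      show cf D η S v = true
      simp only [cf, hvD, if_true] at hvo ⊢
      exact hvo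
  exact (key _ h).1

/-- Decreasing functions. -/
def DecF (F : Cfg → ℝ) : Prop := ∀ ω ω' : Cfg, (∀ v, ω v = true → ω' v = true) → F ω' ≤ F ω

theorem DecF.neg {F : Cfg → ℝ} (h : DecF F) : IncF (fun ω => - F ω) :=
  fun ω ω' h' => neg_le_neg (h ω ω' h')

/-- **The wired outside.** -/
theorem ratio_lower {Q : ℝ} (hQ : 1 ≤ Q) {U I : Finset (ℤ × ℤ)} (hI : I ⊆ U) {ξ ξ' : Cfg}
    (hξ : Good ξ) (hξ' : Good ξ') {T : Set (ℤ × ℤ)} (hTe : ∀ s ∈ T, Even (s.1 + s.2))
    (hT : ∀ v, v ∉ U → ξ v = true → ∀ a ∈ U, ∀ u : ℤ × ℤ, Even (u.1 + u.2) → Cor v u →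
      Cor a u → u ∈ T) {F : Cfg → ℝ} (hF : DecF F) (hl : Loc I F) (h0 : ∀ ω, 0 ≤ F ω) :
    (1 - Pr Q U ξ (Arm U T I)) * Ex Q U ξ' F ≤ Ex Q U ξ F := by
  classical
  have hQ0 : 0 < Q := by linarith
  have e1 : 1 - Pr Q U ξ (Arm U T I) = Ex Q U ξ ((Arm U T I)ᶜ.indicator 1) := by
    rw [← Pr_compl hQ0]; rfl
  have h2 : Ex Q U ξ (fun ω => (Arm U T I)ᶜ.indicator 1 ω * Ex Q U ξ' F) ≤
      Ex Q U ξ (fun ω => (Arm U T I)ᶜ.indicator 1 ω * F ω) := by
    rw [Ex_split (α := Set (ℤ × ℤ)) (CT U T)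
        (fun ω => (Arm U T I)ᶜ.indicator 1 ω * Ex Q U ξ' F),
      Ex_split (α := Set (ℤ × ℤ)) (CT U T) (fun ω => (Arm U T I)ᶜ.indicator 1 ω * F ω)]
    refine Finset.sum_le_sum fun K hK => ?_
    by_cases hA : ∃ v ∈ I, ∃ t ∈ K, Cor v t
    · have hz : ∀ (G : Cfg → ℝ), Ex Q U ξ (fun ω => {ω | CT U T ω = K}.indicator 1 ω *
          ((Arm U T I)ᶜ.indicator 1 ω * G ω)) = 0 := by
        intro G
        rw [Ex_congr (G := fun _ => 0), Ex_const hQ0]
        intro S _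
        by_cases hk : CT U T (cf U ξ S) = K
        · have : cf U ξ S ∉ (Arm U T I)ᶜ := by
            rw [Set.mem_compl_iff, not_not]
            show ∃ v ∈ I, ∃ t ∈ CT U T (cf U ξ S), Cor v t
            rw [hk]
            exact hA
          rw [Set.indicator_of_notMem this, zero_mul, mul_zero]
        · rw [Set.indicator_of_notMem (show cf U ξ S ∉ {ω | CT U T ω = K} from hk), zero_mul]
      rw [hz fun _ => Ex Q U ξ' F, hz F]
    · have hc : ∀ (G : Cfg → ℝ), Ex Q U ξ (fun ω => {ω | CT U T ω = K}.indicator 1 ω *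
          ((Arm U T I)ᶜ.indicator 1 ω * G ω)) =
          Ex Q U ξ (fun ω => {ω | CT U T ω = K}.indicator 1 ω * G ω) := by
        intro G
        refine Ex_congr fun S _ => ?_
        by_cases hk : CT U T (cf U ξ S) = K
        · have : cf U ξ S ∈ (Arm U T I)ᶜ := by
            rw [Set.mem_compl_iff]
            show ¬ ∃ v ∈ I, ∃ t ∈ CT U T (cf U ξ S), Cor v t
            rw [hk]
            exact hA
          rw [Set.indicator_of_mem this, Pi.one_apply, one_mul]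
        · rw [Set.indicator_of_notMem (show cf U ξ S ∉ {ω | CT U T ω = K} from hk), zero_mul,
            zero_mul]
      rw [hc fun _ => Ex Q U ξ' F, hc F]
      have hIr : I ⊆ rest U K := by
        intro v hv
        rw [mem_rest]
        refine ⟨hI hv, fun t ht h => hA ⟨v, hv, t, ht, h⟩⟩
      have hrU : rest U K ⊆ U := fun v hv => (mem_rest.1 hv).1
      have hlr : Loc (rest U K) F := fun ω ω' h => hl ω ω' fun v hv => h v (hIr hv)
      rw [markov H259.f_markov hQ0 hrU hξ (F := F) (ind_CT K)]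
      refine Ex_mono hQ0 fun S _ => ?_
      by_cases hk : CT U T (cf U ξ S) = K
      · refine mul_le_mul_of_nonneg_left ?_ (ind_nonneg _ _)
        have hgood : Good (cf U ξ S) := f_good.1 U ξ S hξ
        have hsep : Sep Set.univ (rest U K) (cf U ξ S) := by
          have h3 := sep_CT (U := U) (T := T) (ω := cf U ξ S) hTe
            (fun v hv hvo => hT v hv (by rw [cf_out hv] at hvo; exact hvo))
          rw [hk] at h3
          exact h3
        have h4 : ∀ η : Cfg, Good η → Ex Q (rest U K) (cf U ξ S) (fun ω => - F ω) ≤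
            Ex Q (rest U K) η (fun ω => - F ω) := fun η hη =>
          sep_free hQ hgood hη hsep hF.neg (fun ω ω' h => by rw [hlr ω ω' h])
        have h5 : Ex Q (rest U K) (cf U ξ S) (fun ω => - F ω) ≤ Ex Q U ξ' (fun ω => - F ω) := by
          rw [H259.f_markov Q (rest U K) U ξ' _ hQ0 hrU hξ',
            ← Ex_const hQ0 (D := U) (η := ξ') (Ex Q (rest U K) (cf U ξ S) fun ω => - F ω)]
          exact Ex_mono hQ0 fun S' _ => h4 _ (f_good.1 U ξ' S' hξ')
        rw [Ex_neg, Ex_neg] at h5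
        linarith
      · rw [Set.indicator_of_notMem (show cf U ξ S ∉ {ω | CT U T ω = K} from hk), zero_mul,
          zero_mul]
  have h3 : Ex Q U ξ (fun ω => (Arm U T I)ᶜ.indicator 1 ω * F ω) ≤ Ex Q U ξ F := by
    refine Ex_mono hQ0 fun S _ => ?_
    exact mul_le_of_le_one_left (h0 _) (ind_le_one _ _)
  have h4 : Ex Q U ξ (fun ω => (Arm U T I)ᶜ.indicator 1 ω * Ex Q U ξ' F) =
      Ex Q U ξ ((Arm U T I)ᶜ.indicator 1) * Ex Q U ξ' F := by
    rw [mul_comm, ← Ex_mul_left]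
    exact Ex_congr fun S _ => mul_comm _ _
  rw [e1, ← h4]
  exact h2.trans h3

theorem Ex_out {Q : ℝ} {U : Finset (ℤ × ℤ)} {ω ω' : Cfg} (h : ∀ v, v ∉ U → ω v = ω' v)
    (F : Cfg → ℝ) : Ex Q U ω F = Ex Q U ω' F := by
  have e : ∀ S, cf U ω S = cf U ω' S := by
    intro S
    funext v
    by_cases hv : v ∈ U
    · simp [cf, hv]
    · simp [cf, hv, h v hv]
  unfold Ex Zq
  simp only [e]

/-- Comparison, only the outside counts. -/
theorem comp_out {Q : ℝ} (hQ : 1 ≤ Q) {U : Finset (ℤ × ℤ)} {ω ω' : Cfg} (hω : Good ω)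
    (hω' : Good ω') (h : ∀ v, v ∉ U → ω v = true → ω' v = true) {F : Cfg → ℝ} (hF : DecF F) :
    Ex Q U ω' F ≤ Ex Q U ω F := by
  have e1 : Ex Q U ω F = Ex Q U (cf U ω ∅) F := Ex_out (fun v hv => (cf_out hv).symm) F
  have e2 : Ex Q U ω' F = Ex Q U (cf U ω' ∅) F := Ex_out (fun v hv => (cf_out hv).symm) F
  have h1 := H259.f_comp Q U (cf U ω ∅) (cf U ω' ∅) (fun ω => - F ω) hQ (f_good.1 U ω ∅ hω)
    (f_good.1 U ω' ∅ hω') (fun v hv => by
      by_cases hvU : v ∈ U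
      · simp [cf, hvU] at hv
      · rw [cf_out hvU] at hv ⊢
        exact h v hvU hv) hF.neg
  rw [Ex_neg, Ex_neg] at h1
  rw [e1, e2]
  linarith

/-- **Two domains which agree in `U`.** `ξ` is any good outside configuration which contains all
possible outsides of `U` in `(D, η)`; the expectation of the decreasing function `F` of the squares
of `I` in `(D, η)` is at least `1 - P(Arm)` times the one in any `(D', η')`. -/
theorem cutp {Q : ℝ} (hQ : 1 ≤ Q) {D D' U I : Finset (ℤ × ℤ)} (hU : U ⊆ D) (hU' : U ⊆ D')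
    (hI : I ⊆ U) {η η' ξ : Cfg} (hη : Good η) (hη' : Good η') (hξ : Good ξ)
    (hle : ∀ v, v ∉ U → (v ∈ D ∨ η v = true) → ξ v = true) {T : Set (ℤ × ℤ)}
    (hTe : ∀ s ∈ T, Even (s.1 + s.2))
    (hT : ∀ v, v ∉ U → ξ v = true → ∀ a ∈ U, ∀ u : ℤ × ℤ, Even (u.1 + u.2) → Cor v u →
      Cor a u → u ∈ T) {F : Cfg → ℝ} (hF : DecF F) (hl : Loc I F) (h0 : ∀ ω, 0 ≤ F ω) :
    (1 - Pr Q U ξ (Arm U T I)) * Ex Q D' η' F ≤ Ex Q D η F := by
  have hQ0 : 0 < Q := by linarith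
  have h1 : Ex Q D' η' F ≤ Ex Q U eta0 F := by
    rw [H259.f_markov Q U D' η' _ hQ0 hU' hη', ← Ex_const hQ0 (D := D') (η := η') (Ex Q U eta0 F)]
    exact Ex_mono hQ0 fun S _ => comp_out hQ f_good.2.1 (f_good.1 D' η' S hη')
      (fun v _ hv => absurd hv (by simp [eta0])) hF
  have h2 : Ex Q U ξ F ≤ Ex Q D η F := by
    rw [H259.f_markov Q U D η _ hQ0 hU hη, ← Ex_const hQ0 (D := D) (η := η) (Ex Q U ξ F)]
    refine Ex_mono hQ0 fun S _ => comp_out hQ (f_good.1 D η S hη) hξ (fun v hv hvo => ?_) hF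
    refine hle v hv ?_
    by_cases hvD : v ∈ D
    · exact Or.inl hvD
    · rw [cf_out hvD] at hvo
      exact Or.inr hvo
  have h3 : 0 ≤ 1 - Pr Q U ξ (Arm U T I) := by linarith [Pr_le_one (D := U) (η := ξ) hQ0 (Arm U T I)]
  calc (1 - Pr Q U ξ (Arm U T I)) * Ex Q D' η' F
      ≤ (1 - Pr Q U ξ (Arm U T I)) * Ex Q U eta0 F := mul_le_mul_of_nonneg_left h1 h3
    _ ≤ Ex Q U ξ F := ratio_lower hQ hI hξ f_good.2.1 hTe hT hF hl h0
    _ ≤ Ex Q D η F := h2

/-- All squares of `I` are closed. -/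
def Cld (I : Finset (ℤ × ℤ)) : Set Cfg := {ω | ∀ v ∈ I, ω v = false}

theorem dec_cld (I : Finset (ℤ × ℤ)) : DecF ((Cld I).indicator 1) := by
  intro ω ω' h
  by_cases h1 : ω' ∈ Cld I
  · have h2 : ω ∈ Cld I := fun v hv => by
      by_contra h3
      have h4 := h v (by simpa using h3)
      rw [h1 v hv] at h4
      exact absurd h4 (by simp)
    rw [Set.indicator_of_mem h1, Set.indicator_of_mem h2]
    simp
  · rw [Set.indicator_of_notMem h1]
    exact ind_nonneg _ _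

theorem loc_cld (I : Finset (ℤ × ℤ)) : Loc I ((Cld I).indicator 1) := by
  intro ω ω' h
  have key : ω ∈ Cld I ↔ ω' ∈ Cld I :=
    ⟨fun h1 v hv => by rw [← h v hv]; exact h1 v hv, fun h1 v hv => by rw [h v hv]; exact h1 v hv⟩
  by_cases h1 : ω ∈ Cld I
  · rw [Set.indicator_of_mem h1, Set.indicator_of_mem (key.1 h1)]
    rfl
  · rw [Set.indicator_of_notMem h1, Set.indicator_of_notMem (fun h2 => h1 (key.2 h2))]

/-- A set of closed squares has positive probability. -/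
theorem pr_cld_pos {Q : ℝ} (hQ : 0 < Q) {D I : Finset (ℤ × ℤ)} (hI : I ⊆ D) (η : Cfg) :
    0 < Pr Q D η (Cld I) := by
  unfold Pr Ex
  refine div_pos ?_ (Zq_pos hQ D η)
  have h1 : Q ^ LD D (cf D η ∅) * (Cld I).indicator 1 (cf D η ∅) ≤
      ∑ S ∈ D.powerset, Q ^ LD D (cf D η S) * (Cld I).indicator 1 (cf D η S) :=
    Finset.single_le_sum (f := fun S => Q ^ LD D (cf D η S) * (Cld I).indicator 1 (cf D η S))
      (fun S _ => mul_nonneg (pow_pos hQ _).le (ind_nonneg _ _)) (Finset.empty_mem_powerset D)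
  refine lt_of_lt_of_le ?_ h1
  have h2 : cf D η ∅ ∈ Cld I := fun v hv => by simp [cf, hI hv]
  rw [Set.indicator_of_mem h2]
  simp only [Pi.one_apply, mul_one]
  exact pow_pos hQ _

/-- **The ratio of the probabilities that the cut is closed.** -/
theorem ratio_cld {Q : ℝ} (hQ : 1 ≤ Q) {D D' U I : Finset (ℤ × ℤ)} (hU : U ⊆ D) (hU' : U ⊆ D')
    (hI : I ⊆ U) {η η' ξ : Cfg} (hη : Good η) (hη' : Good η') (hξ : Good ξ)
    (hle : ∀ v, v ∉ U → (v ∈ D ∨ η v = true) → ξ v = true)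
    (hle' : ∀ v, v ∉ U → (v ∈ D' ∨ η' v = true) → ξ v = true) {T : Set (ℤ × ℤ)}
    (hTe : ∀ s ∈ T, Even (s.1 + s.2))
    (hT : ∀ v, v ∉ U → ξ v = true → ∀ a ∈ U, ∀ u : ℤ × ℤ, Even (u.1 + u.2) → Cor v u →
      Cor a u → u ∈ T) {ε : ℝ} (hε : ε ≤ 1 / 2) (ha : Pr Q U ξ (Arm U T I) ≤ ε) :
    |Pr Q D η (Cld I) / Pr Q D' η' (Cld I) - 1| ≤ 2 * ε := by
  have hQ0 : 0 < Q := by linarith
  have p1 := pr_cld_pos hQ0 (hI.trans hU) η
  have p2 := pr_cld_pos hQ0 (hI.trans hU') η'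
  have h1 : (1 - Pr Q U ξ (Arm U T I)) * Pr Q D' η' (Cld I) ≤ Pr Q D η (Cld I) :=
    cutp hQ hU hU' hI hη hη' hξ hle hTe hT (dec_cld I) (loc_cld I) (ind_nonneg _)
  have h2 : (1 - Pr Q U ξ (Arm U T I)) * Pr Q D η (Cld I) ≤ Pr Q D' η' (Cld I) :=
    cutp hQ hU' hU hI hη' hη hξ hle' hTe hT (dec_cld I) (loc_cld I) (ind_nonneg _)
  have h3 : (1 - ε) * Pr Q D' η' (Cld I) ≤ Pr Q D η (Cld I) := by nlinarith
  have h4 : (1 - ε) * Pr Q D η (Cld I) ≤ Pr Q D' η' (Cld I) := by nlinarith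
  have hε0 : 0 ≤ ε := (Pr_nonneg hQ0 _).trans ha
  rw [abs_le]
  constructor
  · rw [neg_le_sub_iff_le_add, ← sub_le_iff_le_add, le_div_iff₀ p2]
    nlinarith
  · rw [sub_le_iff_le_add, div_le_iff₀ p2]
    nlinarith

end Vale.Agent.P167.QG
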