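import Vale.Agent.P167.Final.Question

/-!
# P167, general `q`: the pseudometric space of curves
-/

set_option autoImplicit false

open MeasureTheory Filter Topology Set

namespace Vale.Agent.P167.QG

open Vale.Agent.P167.Final (curveDist BoundedContinuous curveDist_le)

/-- Curves with the distance `curveDist`. -/
def Cv : Type := C(unitInterval, ℂ)

/-- The curve as a point of `Cv`. -/
def toCv (x : C(unitInterval, ℂ)) : Cv := x

theorem bdd (x y : C(unitInterval, ℂ)) (φ : (unitInterval ≃o unitInterval) × (unitInterval ≃o unitInterval)) :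
    BddAbove (range fun t => ‖x (φ.1 t) - y (φ.2 t)‖) := by
  refine ⟨‖x‖ + ‖y‖, ?_⟩
  rintro _ ⟨t, rfl⟩
  exact (norm_sub_le _ _).trans (add_le_add (x.norm_coe_le_norm _) (y.norm_coe_le_norm _))

theorem curveDist_nonneg (x y : C(unitInterval, ℂ)) : 0 ≤ curveDist x y :=
  Real.iInf_nonneg fun _ => Real.iSup_nonneg fun _ => norm_nonneg _

theorem curveDist_self (x : C(unitInterval, ℂ)) : curveDist x x = 0 := by
  refine le_antisymm ?_ (curveDist_nonneg x x)
  refine curveDist_le x x (OrderIso.refl _) (OrderIso.refl _) 0 fun t => ?_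
  simp

/-- A pair of parametrizations which is almost optimal. -/
theorem exists_lt (x y : C(unitInterval, ℂ)) {ε : ℝ} (hε : 0 < ε) :
    ∃ φ : (unitInterval ≃o unitInterval) × (unitInterval ≃o unitInterval),
      ∀ t, ‖x (φ.1 t) - y (φ.2 t)‖ < curveDist x y + ε := by
  have : Nonempty ((unitInterval ≃o unitInterval) × (unitInterval ≃o unitInterval)) :=
    ⟨(OrderIso.refl _, OrderIso.refl _)⟩
  obtain ⟨φ, hφ⟩ := exists_lt_of_ciInf_lt (show (⨅ φ : (unitInterval ≃o unitInterval) ×
    (unitInterval ≃o unitInterval), ⨆ t, ‖x (φ.1 t) - y (φ.2 t)‖) < curveDist x y + ε from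
    lt_add_of_pos_right _ hε)
  exact ⟨φ, fun t => lt_of_le_of_lt (le_ciSup (bdd x y φ) t) hφ⟩

theorem curveDist_comm (x y : C(unitInterval, ℂ)) : curveDist x y = curveDist y x := by
  have key : ∀ x y : C(unitInterval, ℂ), curveDist x y ≤ curveDist y x := by
    intro x y
    refine le_of_forall_pos_le_add fun ε hε => ?_
    obtain ⟨φ, hφ⟩ := exists_lt y x hε
    refine curveDist_le x y φ.2 φ.1 _ fun t => ?_
    rw [norm_sub_rev]
    exact (hφ t).le
  exact le_antisymm (key x y) (key y x)

theorem curveDist_triangle (x y z : C(unitInterval, ℂ)) :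
    curveDist x z ≤ curveDist x y + curveDist y z := by
  refine le_of_forall_pos_le_add fun ε hε => ?_
  obtain ⟨φ, hφ⟩ := exists_lt x y (half_pos hε)
  obtain ⟨χ, hχ⟩ := exists_lt y z (half_pos hε)
  refine curveDist_le x z φ.1 ((φ.2.trans χ.1.symm).trans χ.2) _ fun t => ?_
  have h1 := hφ t
  have h2 := hχ (χ.1.symm (φ.2 t))
  rw [OrderIso.apply_symm_apply] at h2
  have h3 : x (φ.1 t) - z (((φ.2.trans χ.1.symm).trans χ.2) t) =
      (x (φ.1 t) - y (φ.2 t)) + (y (φ.2 t) - z (χ.2 (χ.1.symm (φ.2 t)))) := by
    simp only [OrderIso.trans_apply]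
    ring
  rw [h3]
  refine (norm_add_le _ _).trans ?_
  linarith

theorem curveDist_le_norm (x y : C(unitInterval, ℂ)) {r : ℝ} (h : ∀ t, ‖x t - y t‖ ≤ r) :
    curveDist x y ≤ r :=
  curveDist_le x y (OrderIso.refl _) (OrderIso.refl _) r h

noncomputable instance : PseudoMetricSpace Cv where
  dist x y := curveDist x y
  dist_self := curveDist_self
  dist_comm := curveDist_comm
  dist_triangle := curveDist_triangle

theorem dist_toCv (x y : C(unitInterval, ℂ)) : dist (toCv x) (toCv y) = curveDist x y := rfl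

theorem continuous_toCv : Continuous toCv := by
  rw [Metric.continuous_iff]
  intro x ε hε
  refine ⟨ε / 2, by positivity, fun y hy => ?_⟩
  refine lt_of_le_of_lt (curveDist_le_norm y x (r := ε / 2) fun t => ?_) (by linarith)
  rw [← dist_eq_norm]
  exact (ContinuousMap.dist_apply_le_dist t).trans hy.le

instance : TopologicalSpace.SeparableSpace Cv := by
  have h : Function.Surjective toCv := fun x => ⟨x, rfl⟩
  exact h.denseRange.separableSpace continuous_toCv

noncomputable instance : MeasurableSpace Cv := borel Cv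

instance : BorelSpace Cv := ⟨rfl⟩

/-- Bounded functions which are continuous for the distance of curves. -/
theorem boundedContinuous_iff {F : C(unitInterval, ℂ) → ℝ} :
    BoundedContinuous F ↔ (∃ M, ∀ x, |F x| ≤ M) ∧ Continuous (fun x : Cv => F x) := by
  unfold BoundedContinuous
  refine and_congr_right fun _ => ?_
  rw [Metric.continuous_iff]
  constructor
  · intro h x ε hε
    obtain ⟨η, hη, h1⟩ := h x ε hε
    refine ⟨η, hη, fun y hy => ?_⟩
    rw [Real.dist_eq, abs_sub_comm]
    refine h1 y ?_
    have h2 : dist x y < η := by rwa [dist_comm]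
    exact h2
  · intro h x ε hε
    obtain ⟨η, hη, h1⟩ := h x ε hε
    refine ⟨η, hη, fun y hy => ?_⟩
    have h2 : dist (toCv y) (toCv x) < η := by
      rw [dist_toCv, curveDist_comm]
      exact hy
    have := h1 y h2
    rwa [Real.dist_eq, abs_sub_comm] at this

end Vale.Agent.P167.QG
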