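import Vale.Agent.P167.QG.Cvd
import Vale.Agent.P167.H199.C.CDefs
import Vale.Agent.P167.E2.Intf

/-!
# P167, general `q`: the law of the interface on the pseudometric space of curves
-/

set_option autoImplicit false

open MeasureTheory Filter Topology Set

namespace Vale.Agent.P167.QG

open Vale.Agent.P167.E6
open Vale.Agent.P153.R2.Final (dom circ toC IsUniformizer)
open Vale.Agent.P167.QE (Cls CurveLimitOn wq wq_pos lawW lawW_prob meanW meanW_eq)
open Vale.Agent.P167.H199.C (IsG ConvTo CL)
open Vale.Agent.P167.SLE (Cf)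

/-- The law of the interface. -/
noncomputable def lawI (q δ : ℝ) {N : ℕ} (p : ZMod N → ℤ × ℤ) (k : ℕ) (S : Finset (ℤ × ℤ)) :
    Measure Cv :=
  (lawW S (wq q N p k S)).map fun A : Cf S => toCv (E2.crv p k δ A.1)

theorem lawI_prob {q : ℝ} (hq : 0 < q) (δ : ℝ) {N : ℕ} (p : ZMod N → ℤ × ℤ) (k : ℕ)
    (S : Finset (ℤ × ℤ)) : IsProbabilityMeasure (lawI q δ p k S) := by
  have := lawW_prob S (w := wq q N p k S) fun A => wq_pos hq _ _ _ _ A
  exact Measure.isProbabilityMeasure_map (Measurable.of_discrete).aemeasurable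

theorem integral_lawI {q : ℝ} (hq : 0 < q) (δ : ℝ) {N : ℕ} (p : ZMod N → ℤ × ℤ) (k : ℕ)
    (S : Finset (ℤ × ℤ)) {F : Cv → ℝ} (hF : Continuous F) :
    ∫ x, F x ∂(lawI q δ p k S) = meanW S (wq q N p k S) fun A => F (toCv (E2.crv p k δ A)) := by
  rw [meanW_eq S (fun A => wq_pos hq _ _ _ _ A), lawI,
    integral_map (Measurable.of_discrete).aemeasurable hF.aestronglyMeasurable]

/-- The mean of a function of the interface. -/
theorem mean_lawI {q : ℝ} (hq : 0 < q) {δ : ℝ} {N k : ℕ} {p : ZMod N → ℤ × ℤ}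
    {S : Finset (ℤ × ℤ)} (hp : IsPolygon p) (hS : Encloses p S) (hk : k < N)
    {c : Finset (Sym2 (ℤ × ℤ)) → C(unitInterval, ℂ)}
    (hc : ∀ A ⊆ edges S, IsInterface p k δ A (c A)) {F : Cv → ℝ} (hF : Continuous F) :
    meanW S (wq q N p k S) (fun A => F (c A)) = ∫ x, F x ∂(lawI q δ p k S) := by
  rw [integral_lawI hq δ p k S hF, meanW, meanW]
  congr 1
  refine Finset.sum_congr rfl fun A hA => ?_
  have hA' := Finset.mem_powerset.1 hA
  rw [E2.isInterface_unique hp hS hk hA' (hc A hA')]
  rfl

/-! ### Measurability -/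

/-- A random curve is measurable if all its continuous functionals are. -/
theorem aemeasurable_of {Ω : Type} [MeasurableSpace Ω] {P : Measure Ω}
    {G : Ω → C(unitInterval, ℂ)}
    (h : ∀ F : C(unitInterval, ℂ) → ℝ, Continuous F → AEMeasurable (fun ω => F (G ω)) P) :
    AEMeasurable (fun ω => toCv (G ω)) P := by
  let _ : MeasurableSpace C(unitInterval, ℂ) := borel _
  have _ : BorelSpace C(unitInterval, ℂ) := ⟨rfl⟩
  have hne : Nonempty C(unitInterval, ℂ) := ⟨0⟩
  let D := TopologicalSpace.denseSeq C(unitInterval, ℂ)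
  have hD : DenseRange D := TopologicalSpace.denseRange_denseSeq _
  let Ψ : C(unitInterval, ℂ) → ℕ → ℝ := fun x i => dist x (D i)
  have hΨ : Continuous Ψ := continuous_pi fun i => continuous_id.dist continuous_const
  have hinj : Function.Injective Ψ := by
    intro x y hxy
    by_contra hne
    have hd : 0 < dist x y := dist_pos.2 hne
    obtain ⟨i, hi⟩ := hD.exists_dist_lt x (half_pos hd)
    have h1 : dist x (D i) = dist y (D i) := congrFun hxy i
    have h2 := dist_triangle_right x y (D i)
    linarith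
  have hemb := hΨ.measurableEmbedding hinj
  have h1 : AEMeasurable (fun ω => Ψ (G ω)) P :=
    aemeasurable_pi_iff.2 fun i => h (fun x => dist x (D i)) (continuous_id.dist continuous_const)
  have h2 : AEMeasurable G P := hemb.aemeasurable_comp_iff.1 h1
  exact continuous_toCv.measurable.comp_aemeasurable h2

/-- The law of a random curve. -/
noncomputable def lawG {Ω : Type} [MeasurableSpace Ω] (P : Measure Ω)
    (G : Ω → C(unitInterval, ℂ)) : Measure Cv := P.map fun ω => toCv (G ω)

theorem lawG_prob {Ω : Type} [MeasurableSpace Ω] {P : Measure Ω} [IsProbabilityMeasure P]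
    {G : Ω → C(unitInterval, ℂ)} (h : AEMeasurable (fun ω => toCv (G ω)) P) :
    IsProbabilityMeasure (lawG P G) := Measure.isProbabilityMeasure_map h

theorem integral_lawG {Ω : Type} [MeasurableSpace Ω] {P : Measure Ω}
    {G : Ω → C(unitInterval, ℂ)} (h : AEMeasurable (fun ω => toCv (G ω)) P) {F : Cv → ℝ}
    (hF : Continuous F) : ∫ x, F x ∂(lawG P G) = ∫ ω, F (toCv (G ω)) ∂P := by
  rw [lawG, integral_map h hF.aestronglyMeasurable]

end Vale.Agent.P167.QG
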