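import Vale.Agent.P167.QG.Exd1

/-!
# P167, general `q`: weak convergence of the laws of the curves
-/

set_option autoImplicit false

open MeasureTheory Filter Topology Set

namespace Vale.Agent.P167.QG

open Vale.Agent.P167.E6
open Vale.Agent.P153.R2.Final (dom circ toC IsUniformizer)
open Vale.Agent.P167.QE (Cls CurveLimitOn wq wq_pos lawW lawW_prob meanW meanW_eq)
open Vale.Agent.P167.H199.C (IsG ConvTo CL)
open Vale.Agent.P167.SLE (Cf)
open scoped BoundedContinuousFunction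
open Vale.Agent.P167.Final (curveDist curveDist_le)

/-- The law of the interface as a probability measure. -/
noncomputable def pI {q : ℝ} (hq : 0 < q) (δ : ℝ) {N : ℕ} (p : ZMod N → ℤ × ℤ) (k : ℕ)
    (S : Finset (ℤ × ℤ)) : ProbabilityMeasure Cv := ⟨lawI q δ p k S, lawI_prob hq δ p k S⟩

/-- The law of a random curve as a probability measure. -/
noncomputable def pG {Ω : Type} [MeasurableSpace Ω] {P : Measure Ω} [IsProbabilityMeasure P]
    {G : Ω → C(unitInterval, ℂ)} (h : AEMeasurable (fun ω => toCv (G ω)) P) :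
    ProbabilityMeasure Cv := ⟨lawG P G, lawG_prob h⟩

theorem comp_eq (x : C(unitInterval, ℂ)) (σ : C(unitInterval, unitInterval)) (hσ : StrictMono σ)
    (hs : Function.Surjective σ) : curveDist (x.comp σ) x = 0 := by
  refine le_antisymm ?_ (curveDist_nonneg _ _)
  refine curveDist_le (x.comp σ) x (OrderIso.refl _) (hσ.orderIsoOfSurjective σ hs) 0 fun t => ?_
  simp

/-- The interface exists. -/
theorem exists_intf {N k : ℕ} {p : ZMod N → ℤ × ℤ} {S : Finset (ℤ × ℤ)} (hp : IsPolygon p)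
    (hS : Encloses p S) (h0 : 0 < k) (hk : k < N) (δ : ℝ) :
    ∀ A ⊆ edges S, IsInterface p k δ A (E2.crv p k δ A) :=
  fun _ hA => E2.isInterface_crv hp hS h0 hk hA δ

/-- Convergence of the laws of the interfaces from the convergence of the expectations. -/
theorem tendsto_pI {q : ℝ} (hq : 0 < q) {Ω : Type} [MeasurableSpace Ω] {P : Measure Ω}
    [IsProbabilityMeasure P] {G : Ω → C(unitInterval, ℂ)}
    (h : AEMeasurable (fun ω => toCv (G ω)) P) {δ : ℕ → ℝ} {N k : ℕ → ℕ}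
    {p : ∀ n, ZMod (N n) → ℤ × ℤ} {S : ℕ → Finset (ℤ × ℤ)}
    (hA : ∀ n, 0 < δ n ∧ 0 < k n ∧ k n < N n ∧ IsPolygon (p n) ∧ Encloses (p n) (S n))
    (hC : ConvTo (wq q) P G δ N k p S) :
    Tendsto (fun n => pI hq (δ n) (p n) (k n) (S n)) atTop (𝓝 (pG h)) := by
  rw [ProbabilityMeasure.tendsto_iff_forall_integral_tendsto]
  intro f
  have hfc : Continuous fun x : Cv => f x := f.continuous
  have h1 := hC (fun n A => E2.crv (p n) (k n) (δ n) A)
    (fun n => exists_intf (hA n).2.2.2.1 (hA n).2.2.2.2 (hA n).2.1 (hA n).2.2.1 (δ n))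
    (fun x => f (toCv x)) (hfc.comp continuous_toCv)
    ⟨‖f‖, fun x => f.norm_coe_le_norm (toCv x)⟩ (fun x σ hσ hs => by
      obtain ⟨_, h3⟩ := boundedContinuous_iff (F := fun x => f (toCv x)) |>.2
        ⟨⟨‖f‖, fun x => f.norm_coe_le_norm (toCv x)⟩, hfc⟩
      by_contra hne
      obtain ⟨η, hη, h4⟩ := h3 (x.comp σ) |f (toCv (x.comp σ)) - f (toCv x)|
        (abs_pos.2 (sub_ne_zero.2 hne))
      exact lt_irrefl _ (h4 x (by rw [comp_eq x σ hσ hs]; exact hη)))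
  have h2 : ∫ ω, f (toCv (G ω)) ∂P = ∫ x, f x ∂((pG h : ProbabilityMeasure Cv) : Measure Cv) :=
    (integral_lawG h hfc).symm
  rw [← h2]
  refine h1.congr fun n => ?_
  exact mean_lawI hq (hA n).2.2.2.1 (hA n).2.2.2.2 (hA n).2.2.1
    (exists_intf (hA n).2.2.2.1 (hA n).2.2.2.2 (hA n).2.1 (hA n).2.2.1 (δ n)) hfc

/-- Convergence of the laws of random curves which converge almost surely. -/
theorem tendsto_pG {Ω : Type} [MeasurableSpace Ω] {P : Measure Ω} [IsProbabilityMeasure P]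
    {G : Ω → C(unitInterval, ℂ)} (h : AEMeasurable (fun ω => toCv (G ω)) P)
    {Gn : ℕ → Ω → C(unitInterval, ℂ)} (hn : ∀ n, AEMeasurable (fun ω => toCv (Gn n ω)) P)
    (hlim : ∀ᵐ ω ∂P, Tendsto (fun n => toCv (Gn n ω)) atTop (𝓝 (toCv (G ω)))) :
    Tendsto (fun n => pG (hn n)) atTop (𝓝 (pG h)) := by
  rw [ProbabilityMeasure.tendsto_iff_forall_integral_tendsto]
  intro f
  have hfc : Continuous fun x : Cv => f x := f.continuous
  have h2 : ∫ ω, f (toCv (G ω)) ∂P = ∫ x, f x ∂((pG h : ProbabilityMeasure Cv) : Measure Cv) :=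
    (integral_lawG h hfc).symm
  have h3 : ∀ n, ∫ ω, f (toCv (Gn n ω)) ∂P =
      ∫ x, f x ∂((pG (hn n) : ProbabilityMeasure Cv) : Measure Cv) :=
    fun n => (integral_lawG (hn n) hfc).symm
  rw [← h2]
  simp only [← h3]
  refine tendsto_integral_of_dominated_convergence (fun _ => ‖f‖)
    (fun n => (hfc.measurable.comp_aemeasurable (hn n)).aestronglyMeasurable)
    (integrable_const _) (fun n => Eventually.of_forall fun ω => f.norm_coe_le_norm _) ?_
  filter_upwards [hlim] with ω hω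
  exact (hfc.tendsto _).comp hω

/-- Convergence in law of the curves in the domains `Φn` from the stability of the uniformizers. -/
theorem tendsto_curves {κ : ℝ} {Ω : Type} [MeasurableSpace Ω] {P : Measure Ω}
    {γ : Ω → ℝ → ℂ} (hγ : Vale.Agent.P164.IsSLE κ P γ) {Φ : (ℝ × ℝ) ≃ₜ (ℝ × ℝ)} {ψ : ℂ → ℂ}
    {G : Ω → C(unitInterval, ℂ)} (hG : IsG Φ ψ P γ G) {Φn : ℕ → (ℝ × ℝ) ≃ₜ (ℝ × ℝ)}
    {ψn : ℕ → ℂ → ℂ} {Gn : ℕ → Ω → C(unitInterval, ℂ)} (hGn : ∀ n, IsG (Φn n) (ψn n) P γ (Gn n))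
    (hΦ : ∀ ε > 0, ∀ᶠ n in atTop, ∀ t, dist (toC (Φn n (circ t))) (toC (Φ (circ t))) < ε)
    (hψ : TendstoUniformlyOn ψn ψ atTop {z | 0 ≤ z.im}) :
    ∀ᵐ ω ∂P, Tendsto (fun n => toCv (Gn n ω)) atTop (𝓝 (toCv (G ω))) := by
  obtain ⟨B, hB, hT⟩ := hγ
  have h1 : ∀ᵐ ω ∂P, ∀ n, Gn n ω 1 = toC (Φn n (circ Real.pi)) ∧
      ∀ t : unitInterval, (t : ℝ) < 1 → Gn n ω t = ψn n (γ ω (t / (1 - t))) :=
    ae_all_iff.2 fun n => (hGn n).1
  filter_upwards [hT, hG.1, h1] with ω hω h2 h3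
  rw [Metric.tendsto_atTop']
  intro ε hε
  rw [Metric.tendstoUniformlyOn_iff] at hψ
  obtain ⟨n₀, hn₀⟩ := eventually_atTop.1 ((hψ (ε / 2) (by positivity)).and
    (hΦ (ε / 2) (by positivity)))
  refine ⟨n₀, fun n hn => ?_⟩
  obtain ⟨h4, h5⟩ := hn₀ n hn.le
  rw [dist_toCv]
  refine lt_of_le_of_lt (curveDist_le_norm _ _ (r := ε / 2) fun t => ?_) (by linarith)
  rw [← dist_eq_norm]
  rcases lt_or_ge (t : ℝ) 1 with ht | ht
  · rw [(h3 n).2 t ht, h2.2 t ht, dist_comm]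
    refine (h4 _ ?_).le
    exact hω.im_nonneg _ (div_nonneg t.2.1 (by linarith))
  · have h6 : t = 1 := Subtype.ext (le_antisymm t.2.2 ht)
    rw [h6, (h3 n).1, h2.1]
    exact (h5 _).le

/-- Diagonal choice. -/
theorem exists_diag {Q : ℕ → ℕ → Prop} (h : ∀ m, ∀ᶠ n in atTop, Q m n) :
    ∃ f : ℕ → ℕ, Tendsto f atTop atTop ∧ ∀ᶠ n in atTop, Q (f n) n := by
  classical
  have h1 : ∀ m, ∃ g, ∀ n, g ≤ n → Q m n := fun m => eventually_atTop.1 (h m)
  choose g hg using h1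
  refine ⟨fun n => Nat.findGreatest (fun m => g m ≤ n) n, ?_, ?_⟩
  · rw [tendsto_atTop]
    intro M
    filter_upwards [eventually_ge_atTop (max M (g M))] with n hn
    exact Nat.le_findGreatest ((le_max_left _ _).trans hn) ((le_max_right _ _).trans hn)
  · filter_upwards [eventually_ge_atTop (g 0)] with n hn
    refine hg _ n ?_
    exact Nat.findGreatest_spec (P := fun m => g m ≤ n) (Nat.zero_le n) hn

end Vale.Agent.P167.QG
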