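import Vale.Agent.P167.QG.Exd3
import Vale.Agent.P167.QG.Apx5
import Vale.Agent.P167.H634.Apx.SPoly
import Vale.Agent.P167.H327.Stab
import Vale.Agent.P167.H264.Rot4

/-!
# P167, general `q`: the statement of Stage I with approximations of all Jordan domains
-/

set_option autoImplicit false

open MeasureTheory Filter Topology Set

namespace Vale.Agent.P167.QG

open Vale.Agent.P167.E6
open Vale.Agent.P167.QE (CurveLimitOn wq)
open Vale.Agent.P167.H199.C (S_poly S_stab)

/-- Every positively oriented marked Jordan domain is approximated by domains which have
approximations, straight near the target, for all meshes. -/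
theorem s_poly_stairU : S_poly QT.StairU := by
  refine H634.Apx.s_poly_of ?_
  intro m q S₀ hq hE σ hc hm hσ ha j hj1 hj2 r hj lam hlam Φ hΦ δ hδ h0
  exact Apx.approx_stair hq hE hc hm hσ ha hj1 hj2 hj hlam hΦ hδ h0

/-- **The curve theorem for the approximations which are straight near the target (in one direction)
gives convergence in every marked Jordan domain for suitable approximations (with arbitrary
meshes).** -/
theorem questionE_stairU {q : ℝ} (hq : 0 < q) {d : Fin 4}
    (h : CurveLimitOn (QE.Stair d) (Final.kappa q) (wq q)) : QuestionE QT.StairU q :=
  questionE_of hq s_poly_stairU H327.s_stab (H264.Rot.curveLimitOn_stairU h)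

end Vale.Agent.P167.QG
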